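import Crest.Agent.Lib.BoxFlow.PT

set_option autoImplicit false
set_option maxHeartbeats 400000

open scoped ContDiff NNReal
open Set Crest.AnalysisR.BoxFlow Topology

noncomputable section

namespace Crest.Agent.Lib.BoxFlow

/-- Everything the final field must satisfy. -/
structure Good (U : Field) : Prop where
  smooth : ContDiff ℝ ∞ U
  eff : Eff' U
  supp : ∃ R : ℝ, ∀ p : ℝ × (Fin 3 → ℝ), (∃ j, R < |p.2 j|) → U p = 0
  time : ∀ p : ℝ × (Fin 3 → ℝ), p.1 ∉ Icc (1 / 4 : ℝ) (3 / 4) → U p = 0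
  div : ∀ p, spaceDiv U p = 0

lemma Good.compactSupport {U : Field} (h : Good U) : HasCompactSupport U := by
  obtain ⟨R, hR⟩ := h.supp
  let K : Set (ℝ × (Fin 3 → ℝ)) :=
    Icc (1 / 4 : ℝ) (3 / 4) ×ˢ (Set.pi univ fun _ => Icc (-R) R)
  have hK : IsCompact K := isCompact_Icc.prod (isCompact_univ_pi fun _ => isCompact_Icc)
  refine HasCompactSupport.intro hK fun p hp => ?_
  by_cases h1 : p.1 ∈ Icc (1 / 4 : ℝ) (3 / 4)
  · have h2 : p.2 ∉ Set.pi univ fun _ : Fin 3 => Icc (-R) R := fun h2 => hp ⟨h1, h2⟩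
    simp only [Set.mem_pi, mem_univ, forall_true_left, not_forall] at h2
    obtain ⟨j, hj⟩ := h2
    refine hR p ⟨j, ?_⟩
    by_contra h3
    exact hj (abs_le.1 (not_lt.1 h3))
  · exact h.time p h1

/-- The zero field is good. -/
lemma good_zero : Good (fun _ => 0) where
  smooth := contDiff_const
  eff := by
    have h : ∀ ds : List (Fin 4), mixedDeriv ds (fun _ => (0 : Fin 3 → ℝ)) = fun _ => 0 := by
      intro ds
      induction ds with
      | nil => rfl
      | cons d ds ih =>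
        funext p
        simp only [mixedDeriv]
        rw [ih]
        simp
    refine ⟨fun j => ?_, fun _ => 0, Computable.const 0, fun ds p j => ?_⟩
    · have h5 : CompReal (fun _ : EvIdx => ((0 : ℚ) : ℝ)) := CompReal.of_rat (cq_const 0)
      convert h5 using 2 with z
      rw [h]
      simp
    · rw [h]; simp
  supp := ⟨0, fun _ _ => rfl⟩
  time := fun _ _ => rfl
  div := fun p => by simp [spaceDiv]

/-- Concatenation of fields in time. -/
def conc (U V : Field) : Field :=
  fun p => tscale 2 2 (-1 / 4) U p + tscale 2 2 (-3 / 4) V p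

/-- Reversal of a field in time. -/
def rev (U : Field) : Field := tscale (-1) (-1) 1 U

lemma Good.conc {U V : Field} (hU : Good U) (hV : Good V) : Good (conc U V) where
  smooth := (contDiff_tscale hU.smooth _ _ _).add (contDiff_tscale hV.smooth _ _ _)
  eff := Eff'.add (contDiff_tscale hU.smooth _ _ _) (contDiff_tscale hV.smooth _ _ _)
    (hU.eff.tscale hU.smooth _ _ _) (hV.eff.tscale hV.smooth _ _ _)
  supp := by
    obtain ⟨R, hR⟩ := hU.supp
    obtain ⟨R', hR'⟩ := hV.supp
    refine ⟨max R R', fun p ⟨j, hj⟩ => ?_⟩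
    have h1 : U ((((2 : ℚ) : ℝ)) * p.1 + ((-1 / 4 : ℚ) : ℝ), p.2) = 0 :=
      hR _ ⟨j, lt_of_le_of_lt (le_max_left _ _) hj⟩
    have h2 : V ((((2 : ℚ) : ℝ)) * p.1 + ((-3 / 4 : ℚ) : ℝ), p.2) = 0 :=
      hR' _ ⟨j, lt_of_le_of_lt (le_max_right _ _) hj⟩
    simp only [Crest.Agent.Lib.BoxFlow.conc, tscale, h1, h2, smul_zero, add_zero]
  time := by
    intro p hp
    simp only [mem_Icc, not_and_or, not_le] at hp
    have h1 : U ((((2 : ℚ) : ℝ)) * p.1 + ((-1 / 4 : ℚ) : ℝ), p.2) = 0 := by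
      apply hU.time
      simp only [mem_Icc, not_and_or, not_le]
      push_cast
      rcases hp with hp | hp
      · left; linarith
      · right; linarith
    have h2 : V ((((2 : ℚ) : ℝ)) * p.1 + ((-3 / 4 : ℚ) : ℝ), p.2) = 0 := by
      apply hV.time
      simp only [mem_Icc, not_and_or, not_le]
      push_cast
      rcases hp with hp | hp
      · left; linarith
      · right; linarith
    simp only [Crest.Agent.Lib.BoxFlow.conc, tscale, h1, h2, smul_zero, add_zero]
  div := by
    intro p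
    have hd : ∀ {W : Field}, ContDiff ℝ ∞ W → ∀ κ α β : ℚ, Differentiable ℝ (tscale κ α β W) :=
      fun hW κ α β => differentiable_of_smooth (contDiff_tscale hW κ α β)
    unfold Crest.Agent.Lib.BoxFlow.conc
    rw [spaceDiv_add (hd hU.smooth _ _ _) (hd hV.smooth _ _ _),
      spaceDiv_tscale (differentiable_of_smooth hU.smooth),
      spaceDiv_tscale (differentiable_of_smooth hV.smooth), hU.div, hV.div]
    simp

lemma Good.rev {U : Field} (hU : Good U) : Good (rev U) where
  smooth := contDiff_tscale hU.smooth _ _ _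
  eff := hU.eff.tscale hU.smooth _ _ _
  supp := by
    obtain ⟨R, hR⟩ := hU.supp
    refine ⟨R, fun p ⟨j, hj⟩ => ?_⟩
    have h1 : U ((((-1 : ℚ) : ℝ)) * p.1 + ((1 : ℚ) : ℝ), p.2) = 0 := hR _ ⟨j, hj⟩
    simp only [Crest.Agent.Lib.BoxFlow.rev, tscale, h1, smul_zero]
  time := by
    intro p hp
    simp only [mem_Icc, not_and_or, not_le] at hp
    have h1 : U ((((-1 : ℚ) : ℝ)) * p.1 + ((1 : ℚ) : ℝ), p.2) = 0 := by
      apply hU.time
      simp only [mem_Icc, not_and_or, not_le]
      push_cast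
      rcases hp with hp | hp
      · right; linarith
      · left; linarith
    simp only [Crest.Agent.Lib.BoxFlow.rev, tscale, h1, smul_zero]
  div := by
    intro p
    unfold Crest.Agent.Lib.BoxFlow.rev
    rw [spaceDiv_tscale (differentiable_of_smooth hU.smooth), hU.div]
    simp

/-- The field carries `S` along the map `g`. -/
def Carries (U : Field) (S : Set (Fin 3 → ℝ)) (g : (Fin 3 → ℝ) → (Fin 3 → ℝ)) : Prop :=
  ∀ x ∈ S, ∃ γ : ℝ → (Fin 3 → ℝ), (∀ t ≤ 1 / 4, γ t = x) ∧ (∀ t, 3 / 4 ≤ t → γ t = g x) ∧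
    ∀ t, HasDerivAt γ (U (t, γ t)) t

lemma Carries.mono {U : Field} {S T : Set (Fin 3 → ℝ)} {g g' : (Fin 3 → ℝ) → (Fin 3 → ℝ)}
    (h : Carries U T g) (hST : S ⊆ T) (hg : ∀ x ∈ S, g' x = g x) : Carries U S g' := by
  intro x hx
  obtain ⟨γ, h0, h1, h2⟩ := h x (hST hx)
  exact ⟨γ, h0, fun t ht => by rw [hg x hx]; exact h1 t ht, h2⟩

lemma Carries.conc {U V : Field} {S T : Set (Fin 3 → ℝ)} {g g' : (Fin 3 → ℝ) → (Fin 3 → ℝ)}
    (hUt : ∀ p : ℝ × (Fin 3 → ℝ), p.1 ∉ Icc (1 / 4 : ℝ) (3 / 4) → U p = 0)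
    (hVt : ∀ p : ℝ × (Fin 3 → ℝ), p.1 ∉ Icc (1 / 4 : ℝ) (3 / 4) → V p = 0)
    (h : Carries U S g) (h' : Carries V T g') (hST : ∀ x ∈ S, g x ∈ T) :
    Carries (conc U V) S (fun x => g' (g x)) := by
  intro x hx
  obtain ⟨γ, h0, h1, h2⟩ := h x hx
  obtain ⟨γ', h0', h1', h2'⟩ := h' (g x) (hST x hx)
  let A : ℝ → (Fin 3 → ℝ) := fun t => γ (2 * t - 1 / 4)
  let B : ℝ → (Fin 3 → ℝ) := fun t => γ' (2 * t - 3 / 4)
  have hA1 : ∀ t, 1 / 2 ≤ t → A t = g x := fun t ht => h1 _ (by linarith)
  have hB0 : ∀ t, t ≤ 1 / 2 → B t = g x := fun t ht => h0' _ (by linarith)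
  refine ⟨fun t => A t + B t - g x, fun t ht => ?_, fun t ht => ?_, fun t => ?_⟩
  · have e1 : A t = x := h0 _ (by linarith)
    simp only [e1, hB0 t (by linarith)]
    abel
  · have e1 : B t = g' (g x) := h1' _ (by linarith)
    simp only [e1, hA1 t (by linarith)]
    abel
  · have d1 : HasDerivAt (fun t : ℝ => 2 * t - 1 / 4) 2 t := by
      simpa using ((hasDerivAt_id t).const_mul (2 : ℝ)).sub_const (1 / 4 : ℝ)
    have d2 : HasDerivAt (fun t : ℝ => 2 * t - 3 / 4) 2 t := by
      simpa using ((hasDerivAt_id t).const_mul (2 : ℝ)).sub_const (3 / 4 : ℝ)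
    have hA : HasDerivAt A ((2 : ℝ) • U (2 * t - 1 / 4, A t)) t :=
      (h2 (2 * t - 1 / 4)).scomp t d1
    have hB : HasDerivAt B ((2 : ℝ) • V (2 * t - 3 / 4, B t)) t :=
      (h2' (2 * t - 3 / 4)).scomp t d2
    have hsum := (hA.add hB).sub_const (g x)
    refine hsum.congr_deriv ?_
    simp only [Crest.Agent.Lib.BoxFlow.conc, tscale]
    rcases le_total t (1 / 2) with ht | ht
    · have e : A t + B t - g x = A t := by rw [hB0 t ht]; abel
      simp only [e]
      rcases eq_or_lt_of_le ht with ht | ht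
      · -- t = 1/2
        subst ht
        have e2 : B (1 / 2) = A (1 / 2) := by rw [hB0 _ le_rfl, hA1 _ le_rfl]
        rw [e2]
        push_cast
        norm_num
      · have e2 : V ((((2 : ℚ) : ℝ)) * t + ((-3 / 4 : ℚ) : ℝ), A t) = 0 := by
          apply hVt
          simp only [mem_Icc, not_and_or, not_le]
          left; push_cast; linarith
        have e3 : V (2 * t - 3 / 4, B t) = 0 := by
          apply hVt
          simp only [mem_Icc, not_and_or, not_le]
          left; linarith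
        rw [e2, e3]
        push_cast
        norm_num
        ring_nf
    · have e : A t + B t - g x = B t := by rw [hA1 t ht]; abel
      simp only [e]
      rcases eq_or_lt_of_le ht with ht | ht
      · subst ht
        have e2 : B (1 / 2) = A (1 / 2) := by rw [hB0 _ le_rfl, hA1 _ le_rfl]
        rw [e2]
        push_cast
        norm_num
      · have e2 : U ((((2 : ℚ) : ℝ)) * t + ((-1 / 4 : ℚ) : ℝ), B t) = 0 := by
          apply hUt
          simp only [mem_Icc, not_and_or, not_le]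
          right; push_cast; linarith
        have e3 : U (2 * t - 1 / 4, A t) = 0 := by
          apply hUt
          simp only [mem_Icc, not_and_or, not_le]
          right; linarith
        rw [e2, e3]
        push_cast
        norm_num
        ring_nf

lemma Carries.rev {U : Field} {S T : Set (Fin 3 → ℝ)} {g k : (Fin 3 → ℝ) → (Fin 3 → ℝ)}
    (h : Carries U S g) (hkS : ∀ y ∈ T, k y ∈ S) (hgk : ∀ y ∈ T, g (k y) = y) :
    Carries (rev U) T k := by
  intro y hy
  obtain ⟨γ, h0, h1, h2⟩ := h (k y) (hkS y hy)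
  refine ⟨fun t => γ (1 - t), fun t ht => ?_, fun t ht => ?_, fun t => ?_⟩
  · show γ (1 - t) = y
    rw [h1 _ (by linarith), hgk y hy]
  · exact h0 _ (by linarith)
  · have d1 : HasDerivAt (fun t : ℝ => 1 - t) (-1) t := by
      simpa using (hasDerivAt_id t).const_sub (1 : ℝ)
    have h3 : HasDerivAt (fun t => γ (1 - t)) ((-1 : ℝ) • U (1 - t, γ (1 - t))) t :=
      (h2 (1 - t)).scomp t d1
    refine h3.congr_deriv ?_
    simp only [Crest.Agent.Lib.BoxFlow.rev, tscale]
    push_cast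
    congr 2
    ring_nf

end Crest.Agent.Lib.BoxFlow
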