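import Crest.Agent.Lib.BoxFlow.FabComp

set_option autoImplicit false
set_option maxHeartbeats 300000

noncomputable section

namespace Crest.Agent.Lib.BoxFlow

/-- A computable family of real numbers. -/
def CompReal {I : Type*} [Primcodable I] (x : I → ℝ) : Prop :=
  ∃ A : I × ℕ → ℚ, Computable A ∧ ∀ i n, |x i - (A (i, n) : ℝ)| ≤ 1 / ((n : ℝ) + 1)

/-- natural bound of a rational. -/
def natB (q : ℚ) : ℕ := ratPos q + ratNeg q

lemma computable_natB : Computable natB :=
  cn_add computable_ratPos computable_ratNeg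

lemma abs_le_natB (q : ℚ) : |(q : ℝ)| ≤ natB q := by
  have h1 : |q| ≤ (natB q : ℚ) := by
    have h0 : (natB q : ℤ) = |q.num| := by
      simp only [natB, ratPos, ratNeg]
      rcases le_total 0 q.num with h | h
      · have : (-q.num).toNat = 0 := by omega
        rw [this, abs_of_nonneg h]; push_cast; omega
      · have : (q.num).toNat = 0 := by omega
        rw [this, abs_of_nonpos h]; push_cast; omega
    have h2 : |q| = |(q.num : ℚ)| / q.den := by
      conv_lhs => rw [← Rat.num_div_den q]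
      rw [abs_div]
      simp
    rw [h2]
    have h3 : (1 : ℚ) ≤ q.den := by exact_mod_cast q.den_pos
    have h4 : |(q.num : ℚ)| = (natB q : ℚ) := by
      have := congrArg (fun z : ℤ => (z : ℚ)) h0
      simp only [Int.cast_abs, Int.cast_natCast] at this
      exact this.symm
    rw [h4]
    exact div_le_self (by positivity) h3
  have h2 : ((|q| : ℚ) : ℝ) ≤ ((natB q : ℚ) : ℝ) := by exact_mod_cast h1
  simpa using h2

section closure
variable {I J : Type*} [Primcodable I] [Primcodable J]

lemma CompReal.of_rat {r : I → ℚ} (hr : Computable r) : CompReal (fun i => (r i : ℝ)) := by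
  refine ⟨fun p => r p.1, ?_, fun i n => ?_⟩
  · exact hr.comp Computable.fst
  · simp only [sub_self, abs_zero]; positivity

lemma CompReal.comp {x : I → ℝ} (hx : CompReal x) {g : J → I} (hg : Computable g) :
    CompReal (fun j => x (g j)) := by
  obtain ⟨A, hA, h⟩ := hx
  refine ⟨fun p => A (g p.1, p.2), ?_, fun i n => h _ _⟩
  have := hA.comp ((hg.comp Computable.fst).pair Computable.snd)
  exact this

lemma CompReal.add {x y : I → ℝ} (hx : CompReal x) (hy : CompReal y) :
    CompReal (fun i => x i + y i) := by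
  obtain ⟨A, hA, h⟩ := hx
  obtain ⟨B, hB, h'⟩ := hy
  refine ⟨fun p => A (p.1, 2 * p.2 + 1) + B (p.1, 2 * p.2 + 1), ?_, fun i n => ?_⟩
  · have hn : Computable fun p : I × ℕ => 2 * p.2 + 1 :=
      cn_add (cn_mul (cn_const 2) Computable.snd) (cn_const 1)
    have h1 := hA.comp (Computable.fst.pair hn)
    have h2 := hB.comp (Computable.fst.pair hn)
    exact cq_add h1 h2
  · have h1 := h i (2 * n + 1)
    have h2 := h' i (2 * n + 1)
    push_cast at h1 h2 ⊢
    rw [abs_le] at *
    have e : (1 : ℝ) / (2 * (n : ℝ) + 1 + 1) = (1 / ((n : ℝ) + 1)) / 2 := by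
      field_simp; ring
    rw [e] at h1 h2
    constructor <;> linarith [h1.1, h1.2, h2.1, h2.2]

lemma CompReal.neg {x : I → ℝ} (hx : CompReal x) : CompReal (fun i => - x i) := by
  obtain ⟨A, hA, h⟩ := hx
  refine ⟨fun p => - A p, ?_, fun i n => ?_⟩
  · exact cq_neg hA
  · have := h i n
    rw [abs_sub_comm] at this
    convert this using 2
    push_cast; ring

lemma CompReal.sub {x y : I → ℝ} (hx : CompReal x) (hy : CompReal y) :
    CompReal (fun i => x i - y i) := by
  simpa [sub_eq_add_neg] using hx.add hy.neg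

lemma CompReal.mul {x y : I → ℝ} (hx : CompReal x) (hy : CompReal y) :
    CompReal (fun i => x i * y i) := by
  obtain ⟨A, hA, h⟩ := hx
  obtain ⟨B, hB, h'⟩ := hy
  -- bound
  let M : I → ℕ := fun i => natB (A (i, 0)) + natB (B (i, 0)) + 3
  have hM : Computable M := by
    have h1 := computable_natB.comp (hA.comp (Computable.id.pair (cn_const 0)))
    have h2 := computable_natB.comp (hB.comp (Computable.id.pair (cn_const 0)))
    exact cn_add (cn_add h1 h2) (cn_const 3)
  have hx1 : ∀ i, |x i| ≤ natB (A (i, 0)) + 1 := by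
    intro i
    have h1 := h i 0
    have h2 := abs_le_natB (A (i, 0))
    have h3 := abs_sub_abs_le_abs_sub (x i) (A (i, 0) : ℝ)
    simp only [Nat.cast_zero, zero_add, div_one] at h1
    linarith
  have hy1 : ∀ i, |y i| ≤ natB (B (i, 0)) + 1 := by
    intro i
    have h1 := h' i 0
    have h2 := abs_le_natB (B (i, 0))
    have h3 := abs_sub_abs_le_abs_sub (y i) (B (i, 0) : ℝ)
    simp only [Nat.cast_zero, zero_add, div_one] at h1
    linarith
  let N : I × ℕ → ℕ := fun p => (M p.1 + 1) * (p.2 + 1)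
  have hN : Computable N := cn_mul (cn_add (hM.comp Computable.fst) (cn_const 1))
      (cn_add Computable.snd (cn_const 1))
  refine ⟨fun p => A (p.1, N p) * B (p.1, N p), ?_, fun i n => ?_⟩
  · have h1 := hA.comp (Computable.fst.pair hN)
    have h2 := hB.comp (Computable.fst.pair hN)
    exact cq_mul h1 h2
  · have h1 := h i (N (i, n))
    have h2 := h' i (N (i, n))
    set a := (A (i, N (i, n)) : ℝ)
    set b := (B (i, N (i, n)) : ℝ)
    set ε : ℝ := 1 / ((N (i, n) : ℝ) + 1) with hε
    have hε0 : 0 ≤ ε := by positivity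
    have hε1 : ε ≤ 1 := by
      rw [hε, div_le_one (by positivity)]
      have : (0 : ℝ) ≤ N (i, n) := by positivity
      linarith
    have hb : |b| ≤ |y i| + ε := by
      have := abs_sub_abs_le_abs_sub b (y i)
      rw [abs_sub_comm b] at this
      linarith
    have hMr : ((M i : ℕ) : ℝ) = natB (A (i, 0)) + natB (B (i, 0)) + 3 := by
      simp [M]
    have hNr : ((N (i, n) : ℕ) : ℝ) = ((M i : ℝ) + 1) * ((n : ℝ) + 1) := by
      simp [N]
    have key : |x i * y i - ((A (i, N (i, n)) * B (i, N (i, n)) : ℚ) : ℝ)| ≤ (M i : ℝ) * ε := by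
      push_cast
      have e : x i * y i - a * b = x i * (y i - b) + (x i - a) * b := by ring
      rw [e]
      calc |x i * (y i - b) + (x i - a) * b|
          ≤ |x i * (y i - b)| + |(x i - a) * b| := abs_add_le _ _
        _ = |x i| * |y i - b| + |x i - a| * |b| := by rw [abs_mul, abs_mul]
        _ ≤ (natB (A (i, 0)) + 1) * ε + ε * (natB (B (i, 0)) + 1 + 1) := by
            have hb' : |b| ≤ natB (B (i, 0)) + 1 + 1 := by linarith [hy1 i]
            have t1 : |x i| * |y i - b| ≤ (natB (A (i, 0)) + 1) * ε :=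
              mul_le_mul (hx1 i) h2 (abs_nonneg _) (by positivity)
            have t2 : |x i - a| * |b| ≤ ε * (natB (B (i, 0)) + 1 + 1) :=
              mul_le_mul h1 hb' (abs_nonneg _) hε0
            linarith
        _ = (M i : ℝ) * ε := by rw [hMr]; ring
    have _ := hε1
    refine key.trans ?_
    rw [hε, hNr]
    have hn0 : (0 : ℝ) < (n : ℝ) + 1 := by positivity
    have hM0 : (0 : ℝ) ≤ (M i : ℝ) := by positivity
    rw [mul_one_div, div_le_div_iff₀ (by positivity) hn0]
    nlinarith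

/-- Finite sums with computable length. -/
lemma CompReal.sum {x : I × ℕ → ℝ} (hx : CompReal x) :
    CompReal (fun p : I × ℕ => ∑ j ∈ Finset.range p.2, x (p.1, j)) := by
  obtain ⟨A, hA, h⟩ := hx
  refine ⟨fun z => ∑ j ∈ Finset.range z.1.2, A ((z.1.1, j), z.1.2 * (z.2 + 1)), ?_, ?_⟩
  · have h1 : Computable fun a : ((I × ℕ) × ℕ) × ℕ =>
        A ((a.1.1.1, a.2), a.1.1.2 * (a.1.2 + 1)) := by
      have h2 : Computable fun a : ((I × ℕ) × ℕ) × ℕ => ((a.1.1.1, a.2), a.1.1.2 * (a.1.2 + 1)) :=
        ((Computable.fst.comp (Computable.fst.comp Computable.fst)).pair Computable.snd).pair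
          (cn_mul (Computable.snd.comp (Computable.fst.comp Computable.fst))
            (cn_add (Computable.snd.comp Computable.fst) (cn_const 1)))
      have := hA.comp h2
      exact this
    have h3 := cq_sum (f := fun (z : (I × ℕ) × ℕ) (j : ℕ) => A ((z.1.1, j), z.1.2 * (z.2 + 1)))
      (g := fun z => z.1.2) (Computable₂.mk h1) (Computable.snd.comp Computable.fst)
    exact h3
  · rintro ⟨i, N⟩ n
    simp only
    push_cast
    rw [← Finset.sum_sub_distrib]
    have h1 : ∀ j ∈ Finset.range N, |x (i, j) - (A ((i, j), N * (n + 1)) : ℝ)| ≤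
        1 / (((N * (n + 1) : ℕ) : ℝ) + 1) := fun j _ => h (i, j) _
    have h2 := Finset.abs_sum_le_sum_abs (fun j => x (i, j) - (A ((i, j), N * (n + 1)) : ℝ))
      (Finset.range N)
    have h3 := Finset.sum_le_sum h1
    simp only [Finset.sum_const, Finset.card_range, nsmul_eq_mul] at h3
    refine h2.trans (h3.trans ?_)
    push_cast
    have hn0 : (0 : ℝ) < (n : ℝ) + 1 := by positivity
    rw [mul_one_div, div_le_div_iff₀ (by positivity) hn0]
    nlinarith [show (0 : ℝ) ≤ (N : ℝ) by positivity]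

end closure

/-- The Fabius function is computable on rationals. -/
lemma compReal_fab : CompReal (fun q : ℚ => fab (q : ℝ)) := by
  refine ⟨fun p => fabQ (p.2 + 1) p.1, ?_, fun q n => ?_⟩
  · have := computable_fabQ.comp ((cn_add Computable.snd (cn_const 1)).pair Computable.fst)
    exact this
  · rw [fabQ_cast, abs_sub_comm]
    refine (abs_fabA_sub_fab (q : ℝ) (n + 1)).trans ?_
    have h1 : ((n : ℝ) + 1) ≤ 2 ^ n := by
      have := (Nat.lt_two_pow_self (n := n))
      have h2 : ((n + 1 : ℕ) : ℝ) ≤ ((2 ^ n : ℕ) : ℝ) := by exact_mod_cast this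
      push_cast at h2
      exact h2
    have h2 : (2 : ℝ) * (1 / 2) ^ (n + 1) = 1 / 2 ^ n := by
      rw [pow_succ, one_div_pow]; field_simp
    rw [h2]
    exact one_div_le_one_div_of_le (by positivity) h1

/-- The derivative family of the Fabius function. -/
def Fd : ℕ → ℝ → ℝ
  | 0, x => fab x
  | m + 1, x => 2 ^ (m + 1) * (Fd m (2 * x) - Fd m (2 * x - 1))

lemma hasDerivAt_Fd (m : ℕ) (x : ℝ) : HasDerivAt (Fd m) (Fd (m + 1) x) x := by
  induction m generalizing x with
  | zero =>
    have := hasDerivAt_fab x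
    simpa [Fd] using this
  | succ m ih =>
    have h1 : HasDerivAt (fun x : ℝ => 2 * x) 2 x := by
      simpa using (hasDerivAt_id x).const_mul (2 : ℝ)
    have h2 : HasDerivAt (fun x : ℝ => 2 * x - 1) 2 x := h1.sub_const 1
    have h3 : HasDerivAt (fun x => Fd m (2 * x)) (Fd (m + 1) (2 * x) * 2) x :=
      (ih (2 * x)).comp x h1
    have h4 : HasDerivAt (fun x => Fd m (2 * x - 1)) (Fd (m + 1) (2 * x - 1) * 2) x :=
      (ih (2 * x - 1)).comp x h2
    have h5 := (h3.sub h4).const_mul ((2 : ℝ) ^ (m + 1))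
    have e : Fd (m + 1) = fun x => 2 ^ (m + 1) * (Fd m (2 * x) - Fd m (2 * x - 1)) := by
      funext y; rfl
    rw [e]
    refine h5.congr_deriv ?_
    show _ = 2 ^ (m + 1 + 1) * (Fd (m + 1) (2 * x) - Fd (m + 1) (2 * x - 1))
    ring

lemma Fd_succ_of_nonpos (m : ℕ) (x : ℝ) (hx : x ≤ 0) : Fd (m + 1) x = 0 := by
  induction m generalizing x with
  | zero =>
    simp only [Fd]
    rw [fab_of_nonpos _ (by linarith), fab_of_nonpos _ (by linarith)]
    simp
  | succ m ih =>
    show 2 ^ (m + 1 + 1) * (Fd (m + 1) (2 * x) - Fd (m + 1) (2 * x - 1)) = 0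
    rw [ih _ (by linarith), ih _ (by linarith)]
    simp

lemma Fd_succ_of_one_le (m : ℕ) (x : ℝ) (hx : 1 ≤ x) : Fd (m + 1) x = 0 := by
  induction m generalizing x with
  | zero =>
    simp only [Fd]
    rw [fab_of_one_le _ (by linarith), fab_of_one_le _ (by linarith)]
    simp
  | succ m ih =>
    show 2 ^ (m + 1 + 1) * (Fd (m + 1) (2 * x) - Fd (m + 1) (2 * x - 1)) = 0
    rw [ih _ (by linarith), ih _ (by linarith)]
    simp

/-- Scaling constants. -/
def Wk : ℕ → ℕ
  | 0 => 1
  | m + 1 => 2 ^ (m + 1) * Wk m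

lemma computable_Wk : Computable Wk := by
  have h4 : Computable₂ (fun (_ : ℕ) (p : ℕ × ℕ) => 2 ^ (p.1 + 1) * p.2) :=
    Computable₂.mk (cn_mul (cn_pow (cn_const 2) (cn_add (Computable.fst.comp Computable.snd)
      (cn_const 1))) (Computable.snd.comp Computable.snd))
  refine (Computable.nat_rec (f := fun n : ℕ => n) (g := fun _ => 1)
    (h := fun _ p => 2 ^ (p.1 + 1) * p.2)
    Computable.id (cn_const 1) h4).of_eq fun n => ?_
  induction n with
  | zero => rfl
  | succ n ih => simp only [Wk]; rw [← ih]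

lemma Fd_closed (m : ℕ) (x : ℝ) :
    Fd m x = (Wk m : ℝ) * ∑ j ∈ Finset.range (2 ^ m), (sg m j : ℝ) * fab (2 ^ m * x - (j : ℝ)) := by
  induction m generalizing x with
  | zero => simp [Fd, Wk, sg]
  | succ m ih =>
    rw [sum_split m (fun j => fab (2 ^ (m + 1) * x - (j : ℝ)))]
    show 2 ^ (m + 1) * (Fd m (2 * x) - Fd m (2 * x - 1)) = _
    rw [ih, ih]
    simp only [Wk]
    push_cast
    rw [mul_assoc, ← mul_sub, ← Finset.sum_sub_distrib]
    congr 2
    refine Finset.sum_congr rfl fun j _ => ?_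
    rw [← mul_sub]
    congr 3
    · ring
    · ring

lemma abs_Fd_le (m : ℕ) (x : ℝ) : |Fd m x| ≤ (Wk m * 2 ^ m : ℕ) := by
  rw [Fd_closed, abs_mul]
  push_cast
  rw [abs_of_nonneg (by positivity : (0 : ℝ) ≤ (Wk m : ℝ))]
  refine mul_le_mul_of_nonneg_left ?_ (by positivity)
  refine (Finset.abs_sum_le_sum_abs _ _).trans ?_
  have : ∀ j ∈ Finset.range (2 ^ m), |(sg m j : ℝ) * fab (2 ^ m * x - (j : ℝ))| ≤ 1 := by
    intro j _
    rw [abs_mul]
    have h1 : |(sg m j : ℝ)| = 1 := by
      have := abs_sg m j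
      have h2 : ((|sg m j| : ℚ) : ℝ) = 1 := by rw [this]; simp
      simpa using h2
    rw [h1, one_mul]
    exact abs_fab_le _
  have h2 := Finset.sum_le_sum this
  simpa using h2

lemma compReal_Fd : CompReal (fun p : ℕ × ℚ => Fd p.1 (p.2 : ℝ)) := by
  -- inner term
  have h1 : CompReal (fun a : (ℕ × ℚ) × ℕ => (sg a.1.1 a.2 : ℝ) *
      fab (((2 ^ a.1.1 * a.1.2 - (a.2 : ℚ) : ℚ)) : ℝ)) := by
    have hm : Computable fun a : (ℕ × ℚ) × ℕ => a.1.1 := Computable.fst.comp Computable.fst
    have hq0 : Computable fun a : (ℕ × ℚ) × ℕ => a.1.2 := Computable.snd.comp Computable.fst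
    have hj : Computable fun a : (ℕ × ℚ) × ℕ => a.2 := Computable.snd
    have hs : Computable fun a : (ℕ × ℚ) × ℕ => sg a.1.1 a.2 := by
      have := computable_sg.comp (hm.pair hj)
      exact this
    have hq : Computable fun a : (ℕ × ℚ) × ℕ => (2 ^ a.1.1 * a.1.2 - (a.2 : ℚ) : ℚ) :=
      cq_sub (cq_mul (cq_pow (cq_const 2) hm) hq0) (cq_nat hj)
    exact (CompReal.of_rat hs).mul (compReal_fab.comp hq)
  have h2 := h1.sum
  have h3 : Computable fun p : ℕ × ℚ => (p, 2 ^ p.1) := by
    have hf : Computable fun p : ℕ × ℚ => p.1 := Computable.fst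
    exact Computable.id.pair (cn_pow (cn_const 2) hf)
  have h4 := h2.comp h3
  have h5 : Computable fun p : ℕ × ℚ => ((Wk p.1 : ℕ) : ℚ) := by
    have hf : Computable fun p : ℕ × ℚ => p.1 := Computable.fst
    exact cq_nat (computable_Wk.comp hf)
  have h6 := (CompReal.of_rat h5).mul h4
  convert h6 using 2 with p
  rw [Fd_closed]
  push_cast
  rfl

/-- One-variable effective families. -/
structure Eff1 (f : ℕ → ℝ → ℝ) : Prop where
  deriv : ∀ m x, HasDerivAt (f m) (f (m + 1) x) x
  approx : CompReal (fun p : ℕ × ℚ => f p.1 (p.2 : ℝ))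
  bound : ∃ b : ℕ → ℕ, Computable b ∧ ∀ m x, |f m x| ≤ (b m : ℝ)

lemma eff1_Fd : Eff1 Fd where
  deriv := hasDerivAt_Fd
  approx := compReal_Fd
  bound := ⟨fun m => Wk m * 2 ^ m, cn_mul computable_Wk (cn_pow (cn_const 2) Computable.id), abs_Fd_le⟩

end Crest.Agent.Lib.BoxFlow
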