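import Crest.Agent.Lib.BoxFlow.CompReal

set_option autoImplicit false
set_option maxHeartbeats 300000

open scoped ContDiff
open Set

noncomputable section

namespace Crest.Agent.Lib.BoxFlow

variable {f g : ℕ → ℝ → ℝ}

lemma Eff1.contDiff (h : Eff1 f) (m : ℕ) : ContDiff ℝ ∞ (f m) := by
  rw [contDiff_infty]
  intro n
  induction n generalizing m with
  | zero =>
    have : Continuous (f m) := continuous_iff_continuousAt.2 fun x => (h.deriv m x).continuousAt
    have h2 : ContDiff ℝ 0 (f m) := contDiff_zero.2 this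
    simpa using h2
  | succ n ih =>
    have e : ((n + 1 : ℕ) : WithTop ℕ∞) = (n : WithTop ℕ∞) + 1 := by norm_cast
    rw [e, contDiff_succ_iff_deriv]
    refine ⟨fun x => (h.deriv m x).differentiableAt, ?_, ?_⟩
    · intro h'
      exact absurd h' (by simp)
    · have : _root_.deriv (f m) = f (m + 1) := by
        funext x; exact (h.deriv m x).deriv
      rw [this]
      exact ih (m + 1)

lemma Eff1.smul (c : ℚ) (h : Eff1 f) : Eff1 (fun m x => (c : ℝ) * f m x) where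
  deriv m x := (h.deriv m x).const_mul _
  approx := by
    have h1 : Computable fun _ : ℕ × ℚ => c := cq_const c
    exact (CompReal.of_rat h1).mul h.approx
  bound := by
    obtain ⟨b, hb, hb'⟩ := h.bound
    refine ⟨fun m => natB c * b m, cn_mul (cn_const _) hb, fun m x => ?_⟩
    rw [abs_mul]
    push_cast
    exact mul_le_mul (abs_le_natB c) (hb' m x) (abs_nonneg _) (by positivity)

lemma Eff1.add (h : Eff1 f) (h' : Eff1 g) : Eff1 (fun m x => f m x + g m x) where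
  deriv m x := (h.deriv m x).add (h'.deriv m x)
  approx := h.approx.add h'.approx
  bound := by
    obtain ⟨b, hb, hb'⟩ := h.bound
    obtain ⟨b2, hb2, hb2'⟩ := h'.bound
    refine ⟨fun m => b m + b2 m, cn_add hb hb2, fun m x => ?_⟩
    push_cast
    exact (abs_add_le _ _).trans (add_le_add (hb' m x) (hb2' m x))

lemma Eff1.sub (h : Eff1 f) (h' : Eff1 g) : Eff1 (fun m x => f m x - g m x) where
  deriv m x := (h.deriv m x).sub (h'.deriv m x)
  approx := h.approx.sub h'.approx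
  bound := by
    obtain ⟨b, hb, hb'⟩ := h.bound
    obtain ⟨b2, hb2, hb2'⟩ := h'.bound
    refine ⟨fun m => b m + b2 m, cn_add hb hb2, fun m x => ?_⟩
    push_cast
    exact (abs_sub _ _).trans (add_le_add (hb' m x) (hb2' m x))

lemma Eff1.shift (h : Eff1 f) : Eff1 (fun m => f (m + 1)) where
  deriv m x := h.deriv (m + 1) x
  approx := by
    have h1 : Computable fun p : ℕ × ℚ => (p.1 + 1, p.2) :=
      (cn_add Computable.fst (cn_const 1)).pair Computable.snd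
    exact h.approx.comp h1
  bound := by
    obtain ⟨b, hb, hb'⟩ := h.bound
    have h1 : Computable fun m : ℕ => m + 1 := cn_add Computable.id (cn_const 1)
    exact ⟨fun m => b (m + 1), hb.comp h1, fun m x => hb' _ x⟩

lemma Eff1.affine (α β : ℚ) (h : Eff1 f) :
    Eff1 (fun m x => (α : ℝ) ^ m * f m ((α : ℝ) * x + (β : ℝ))) where
  deriv m x := by
    have h1 : HasDerivAt (fun x : ℝ => (α : ℝ) * x + (β : ℝ)) (α : ℝ) x := by
      simpa using ((hasDerivAt_id x).const_mul (α : ℝ)).add_const (β : ℝ)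
    have h2 : HasDerivAt (fun x => f m ((α : ℝ) * x + (β : ℝ)))
        (f (m + 1) ((α : ℝ) * x + (β : ℝ)) * (α : ℝ)) x := (h.deriv m _).comp x h1
    refine (h2.const_mul ((α : ℝ) ^ m)).congr_deriv ?_
    rw [pow_succ]; ring
  approx := by
    have hm : Computable fun p : ℕ × ℚ => p.1 := Computable.fst
    have hq : Computable fun p : ℕ × ℚ => p.2 := Computable.snd
    have h1 : Computable fun p : ℕ × ℚ => α ^ p.1 := cq_pow (cq_const α) hm
    have h2 : Computable fun p : ℕ × ℚ => (p.1, α * p.2 + β) :=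
      hm.pair (cq_add (cq_mul (cq_const α) hq) (cq_const β))
    have h3 := (CompReal.of_rat h1).mul (h.approx.comp h2)
    convert h3 using 2 with p
    push_cast
    rfl
  bound := by
    obtain ⟨b, hb, hb'⟩ := h.bound
    refine ⟨fun m => natB α ^ m * b m, cn_mul (cn_pow (cn_const _) Computable.id) hb, fun m x => ?_⟩
    rw [abs_mul, abs_pow]
    push_cast
    exact mul_le_mul (pow_le_pow_left₀ (abs_nonneg _) (abs_le_natB α) m) (hb' m _) (abs_nonneg _)
      (by positivity)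

/-- Multiplication by `x - c`, for compactly supported families. -/
def mulXf (f : ℕ → ℝ → ℝ) (c : ℝ) (m : ℕ) (x : ℝ) : ℝ :=
  (x - c) * f m x + (m : ℝ) * f (m - 1) x

lemma mulXf_out {S : Set ℝ} (hs : ∀ m x, x ∉ S → f m x = 0) (c : ℝ) (m : ℕ) (x : ℝ)
    (hx : x ∉ S) : mulXf f c m x = 0 := by
  simp [mulXf, hs _ x hx]

lemma Eff1.mulX (c : ℚ) (A B : ℝ) (h : Eff1 f) (hs : ∀ m x, x ∉ Icc A B → f m x = 0) :
    Eff1 (mulXf f (c : ℝ)) where
  deriv m x := by
    have h1 : HasDerivAt (fun x : ℝ => x - (c : ℝ)) 1 x := (hasDerivAt_id x).sub_const _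
    have h2 := h1.mul (h.deriv m x)
    rcases m with _ | m
    · have e : mulXf f (c : ℝ) 0 = fun x => (x - (c : ℝ)) * f 0 x := by
        funext y; simp [mulXf]
      rw [e]
      refine h2.congr_deriv ?_
      simp [mulXf]
      ring
    · have h3 := h2.add ((h.deriv m x).const_mul ((m + 1 : ℕ) : ℝ))
      have e : mulXf f (c : ℝ) (m + 1) = fun x => (x - (c : ℝ)) * f (m + 1) x +
          ((m + 1 : ℕ) : ℝ) * f m x := by
        funext y; simp [mulXf]
      rw [e]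
      refine h3.congr_deriv ?_
      simp [mulXf]
      ring
  approx := by
    have hm : Computable fun p : ℕ × ℚ => p.1 := Computable.fst
    have hq : Computable fun p : ℕ × ℚ => p.2 := Computable.snd
    have h1 : Computable fun p : ℕ × ℚ => p.2 - c := cq_sub hq (cq_const c)
    have h2 : Computable fun p : ℕ × ℚ => (p.1 : ℚ) := cq_nat hm
    have h3 : Computable fun p : ℕ × ℚ => (p.1 - 1, p.2) := (cn_sub hm (cn_const 1)).pair hq
    have h4 := ((CompReal.of_rat h1).mul h.approx).add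
      ((CompReal.of_rat h2).mul (h.approx.comp h3))
    convert h4 using 2 with p
    simp [mulXf]
  bound := by
    obtain ⟨b, hb, hb'⟩ := h.bound
    obtain ⟨R, hR⟩ : ∃ R : ℕ, ∀ x ∈ Icc A B, |x - (c : ℝ)| ≤ R := by
      obtain ⟨R, hR⟩ := exists_nat_ge (|A - (c : ℝ)| + |B - (c : ℝ)|)
      refine ⟨R, fun x hx => ?_⟩
      refine le_trans ?_ hR
      have h1 := abs_nonneg (A - (c : ℝ))
      have h2 := abs_nonneg (B - (c : ℝ))
      rw [abs_le]
      constructor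
      · have := neg_abs_le (A - (c : ℝ))
        linarith [hx.1]
      · have := le_abs_self (B - (c : ℝ))
        linarith [hx.2]
    refine ⟨fun m => R * b m + m * b (m - 1), ?_, fun m x => ?_⟩
    · exact cn_add (cn_mul (cn_const _) hb)
        (cn_mul Computable.id (hb.comp (cn_sub Computable.id (cn_const 1))))
    · by_cases hx : x ∈ Icc A B
      · push_cast
        refine (abs_add_le _ _).trans (add_le_add ?_ ?_)
        · rw [abs_mul]
          exact mul_le_mul (hR x hx) (hb' m x) (abs_nonneg _) (by positivity)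
        · rw [abs_mul, Nat.abs_cast]
          exact mul_le_mul_of_nonneg_left (hb' _ x) (by positivity)
      · rw [mulXf_out hs c m x hx]
        simp only [abs_zero]
        positivity

/-- Plateau functions. -/
def chi (a b δ : ℚ) (m : ℕ) (x : ℝ) : ℝ :=
  ((1 / δ : ℚ) : ℝ) ^ m * Fd m (((1 / δ : ℚ) : ℝ) * x + ((-a / δ : ℚ) : ℝ)) -
    ((1 / δ : ℚ) : ℝ) ^ m * Fd m (((1 / δ : ℚ) : ℝ) * x + ((-b / δ : ℚ) : ℝ))

lemma eff1_chi (a b δ : ℚ) : Eff1 (chi a b δ) :=
  (eff1_Fd.affine (1 / δ) (-a / δ)).sub (eff1_Fd.affine (1 / δ) (-b / δ))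

lemma Fd_of_nonpos (m : ℕ) (x : ℝ) (hx : x ≤ 0) : Fd m x = 0 := by
  rcases m with _ | m
  · exact fab_of_nonpos x hx
  · exact Fd_succ_of_nonpos m x hx

lemma chi_aux (a δ : ℚ) (hδ : 0 < δ) (x : ℝ) :
    ((1 / δ : ℚ) : ℝ) * x + ((-a / δ : ℚ) : ℝ) = (x - a) / δ := by
  have : (δ : ℝ) ≠ 0 := by exact_mod_cast hδ.ne'
  push_cast
  field_simp
  ring

lemma chi_out (a b δ : ℚ) (hab : a ≤ b) (hδ : 0 < δ) (m : ℕ) (x : ℝ)
    (hx : x ∉ Icc (a : ℝ) ((b : ℝ) + δ)) : chi a b δ m x = 0 := by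
  have hδ' : (0 : ℝ) < δ := by exact_mod_cast hδ
  have hab' : (a : ℝ) ≤ b := by exact_mod_cast hab
  simp only [chi, chi_aux a δ hδ, chi_aux b δ hδ]
  simp only [mem_Icc, not_and_or, not_le] at hx
  rcases hx with hx | hx
  · rw [Fd_of_nonpos m _ (div_nonpos_of_nonpos_of_nonneg (by linarith) hδ'.le),
      Fd_of_nonpos m _ (div_nonpos_of_nonpos_of_nonneg (by linarith) hδ'.le)]
    simp
  · have h1 : 1 ≤ (x - a) / δ := by rw [le_div_iff₀ hδ']; linarith
    have h2 : 1 ≤ (x - b) / δ := by rw [le_div_iff₀ hδ']; linarith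
    rcases m with _ | m
    · simp [Fd, fab_of_one_le _ h1, fab_of_one_le _ h2]
    · rw [Fd_succ_of_one_le m _ h1, Fd_succ_of_one_le m _ h2]
      simp

lemma chi_core_zero (a b δ : ℚ) (hδ : 0 < δ) (x : ℝ)
    (hx : x ∈ Icc ((a : ℝ) + δ) (b : ℝ)) : chi a b δ 0 x = 1 := by
  have hδ' : (0 : ℝ) < δ := by exact_mod_cast hδ
  simp only [chi, chi_aux a δ hδ, chi_aux b δ hδ]
  have h1 : 1 ≤ (x - a) / δ := by rw [le_div_iff₀ hδ']; linarith [hx.1]
  have h2 : (x - b) / δ ≤ 0 := div_nonpos_of_nonpos_of_nonneg (by linarith [hx.2]) hδ'.le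
  simp [Fd, fab_of_one_le _ h1, fab_of_nonpos _ h2]

lemma chi_core_one (a b δ : ℚ) (hδ : 0 < δ) (x : ℝ)
    (hx : x ∈ Icc ((a : ℝ) + δ) (b : ℝ)) : chi a b δ 1 x = 0 := by
  have hδ' : (0 : ℝ) < δ := by exact_mod_cast hδ
  simp only [chi, chi_aux a δ hδ, chi_aux b δ hδ]
  have h1 : 1 ≤ (x - a) / δ := by rw [le_div_iff₀ hδ']; linarith [hx.1]
  have h2 : (x - b) / δ ≤ 0 := div_nonpos_of_nonpos_of_nonneg (by linarith [hx.2]) hδ'.le
  rw [Fd_succ_of_one_le 0 _ h1, Fd_succ_of_nonpos 0 _ h2]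
  simp

/-- The potential of a shear: `(β/2)(x-c)² + κ(x-c)` on the plateau. -/
def Gf (β κ c : ℚ) (χ : ℕ → ℝ → ℝ) (m : ℕ) (x : ℝ) : ℝ :=
  ((β / 2 : ℚ) : ℝ) * mulXf (mulXf χ (c : ℝ)) (c : ℝ) m x + (κ : ℝ) * mulXf χ (c : ℝ) m x

lemma eff1_Gf (β κ c : ℚ) {χ : ℕ → ℝ → ℝ} (A B : ℝ) (h : Eff1 χ)
    (hs : ∀ m x, x ∉ Icc A B → χ m x = 0) : Eff1 (Gf β κ c χ) := by
  have h1 := h.mulX c A B hs
  have h2 := h1.mulX c A B (fun m x hx => mulXf_out hs _ m x hx)
  exact (h2.smul (β / 2)).add (h1.smul κ)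

lemma Gf_out (β κ c : ℚ) {χ : ℕ → ℝ → ℝ} {S : Set ℝ} (hs : ∀ m x, x ∉ S → χ m x = 0)
    (m : ℕ) (x : ℝ) (hx : x ∉ S) : Gf β κ c χ m x = 0 := by
  simp only [Gf]
  rw [mulXf_out (fun m x hx => mulXf_out hs _ m x hx) _ m x hx, mulXf_out hs _ m x hx]
  simp

lemma Gf_core_one (β κ c : ℚ) {χ : ℕ → ℝ → ℝ} (x : ℝ) (h0 : χ 0 x = 1) (h1 : χ 1 x = 0) :
    Gf β κ c χ 1 x = (β : ℝ) * (x - c) + κ := by
  simp [Gf, mulXf, h0, h1]
  ring

/-- Time profile: `ψ = Ψ'`, `Ψ(t) = fab (2t - 1/2)`. -/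
def psiF (m : ℕ) (t : ℝ) : ℝ := ((2 : ℚ) : ℝ) ^ m * Fd (m + 1) (((2 : ℚ) : ℝ) * t + ((-1 / 2 : ℚ) : ℝ))

lemma eff1_psi : Eff1 psiF := eff1_Fd.shift.affine 2 (-1 / 2)

lemma psiF_out (m : ℕ) (t : ℝ) (ht : t ∉ Icc (1 / 4 : ℝ) (3 / 4)) : psiF m t = 0 := by
  simp only [mem_Icc, not_and_or, not_le] at ht
  simp only [psiF]
  push_cast
  rcases ht with ht | ht
  · rw [Fd_succ_of_nonpos m _ (by linarith)]; simp
  · rw [Fd_succ_of_one_le m _ (by linarith)]; simp

/-- Time reparametrisation. -/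
def Psi (t : ℝ) : ℝ := fab (2 * t - 1 / 2)

lemma Psi_of_le (t : ℝ) (ht : t ≤ 1 / 4) : Psi t = 0 := fab_of_nonpos _ (by linarith)

lemma Psi_of_ge (t : ℝ) (ht : 3 / 4 ≤ t) : Psi t = 1 := fab_of_one_le _ (by linarith)

lemma Psi_mem (t : ℝ) : Psi t ∈ Icc (0 : ℝ) 1 := ⟨fab_nonneg _, fab_le_one _⟩

lemma hasDerivAt_Psi (t : ℝ) : HasDerivAt Psi (2 * psiF 0 t) t := by
  have h1 : HasDerivAt (fun x : ℝ => 2 * x - 1 / 2) 2 t := by
    simpa using ((hasDerivAt_id t).const_mul (2 : ℝ)).sub_const (1 / 2 : ℝ)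
  have h2 := (hasDerivAt_Fd 0 (2 * t - 1 / 2)).comp t h1
  have e : Psi = Fd 0 ∘ fun x : ℝ => 2 * x - 1 / 2 := by
    funext y; rfl
  rw [e]
  refine h2.congr_deriv ?_
  simp only [psiF]
  push_cast
  ring_nf

end Crest.Agent.Lib.BoxFlow
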