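import Crest.Agent.Lib.BoxFlow.Fabius

set_option autoImplicit false

open MeasureTheory intervalIntegral Filter Topology Set

noncomputable section

namespace Crest.Agent.Lib.BoxFlow

/-- Truncated power. -/
def tp (k : ℕ) (y : ℝ) : ℝ := (max y 0) ^ k

lemma continuous_tp (k : ℕ) : Continuous (tp k) :=
  (continuous_id.max continuous_const).pow k

lemma tp_of_nonpos (k : ℕ) (hk : k ≠ 0) (y : ℝ) (hy : y ≤ 0) : tp k y = 0 := by
  simp [tp, max_eq_right hy, hk]

lemma tp_of_nonneg (k : ℕ) (y : ℝ) (hy : 0 ≤ y) : tp k y = y ^ k := by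
  simp [tp, max_eq_left hy]

lemma tp_two_mul (k : ℕ) (y : ℝ) : tp k (2 * y) = 2 ^ k * tp k y := by
  unfold tp
  rcases le_total y 0 with h | h
  · rw [max_eq_right (by linarith), max_eq_right h]
    rcases Nat.eq_zero_or_pos k with rfl | hk
    · simp
    · rw [zero_pow hk.ne']; simp
  · rw [max_eq_left (by linarith), max_eq_left h, mul_pow]

lemma hasDerivAt_tp (k : ℕ) (y : ℝ) :
    HasDerivAt (tp (k + 2)) (((k : ℝ) + 2) * tp (k + 1) y) y := by
  have hpow : ∀ y : ℝ, HasDerivAt (fun z : ℝ => z ^ (k + 2)) (((k : ℝ) + 2) * y ^ (k + 1)) y := by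
    intro y
    have := hasDerivAt_pow (k + 2) y
    simpa using this
  rcases lt_trichotomy y 0 with h | h | h
  · have e : tp (k + 2) =ᶠ[𝓝 y] fun _ => (0 : ℝ) := by
      filter_upwards [Iio_mem_nhds h] with z hz
      exact tp_of_nonpos _ (by omega) _ (le_of_lt hz)
    rw [tp_of_nonpos (k + 1) (by omega) y h.le, mul_zero]
    exact (hasDerivAt_const y (0 : ℝ)).congr_of_eventuallyEq e
  · subst h
    have h1 : HasDerivWithinAt (tp (k + 2)) 0 (Iic 0) 0 := by
      have := (hasDerivAt_const (0 : ℝ) (0 : ℝ)).hasDerivWithinAt (s := Iic 0)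
      refine this.congr (fun z hz => tp_of_nonpos _ (by omega) _ hz) (tp_of_nonpos _ (by omega) _ le_rfl)
    have h2 : HasDerivWithinAt (tp (k + 2)) 0 (Ici 0) 0 := by
      have := ((hpow 0).hasDerivWithinAt (s := Ici 0))
      simp only [ne_eq, Nat.add_eq_zero_iff, one_ne_zero, and_false, not_false_eq_true, zero_pow,
        mul_zero] at this
      refine this.congr (fun z hz => tp_of_nonneg _ _ hz) (tp_of_nonneg _ _ le_rfl)
    have h3 := h1.union h2
    rw [Iic_union_Ici, hasDerivWithinAt_univ] at h3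
    rw [tp_of_nonpos (k + 1) (by omega) 0 le_rfl, mul_zero]
    exact h3
  · have e : tp (k + 2) =ᶠ[𝓝 y] fun z => z ^ (k + 2) := by
      filter_upwards [Ioi_mem_nhds h] with z hz
      exact tp_of_nonneg _ _ (le_of_lt hz)
    rw [tp_of_nonneg (k + 1) y h.le]
    exact (hpow y).congr_of_eventuallyEq e

lemma integral_tp (k : ℕ) (b : ℝ) :
    ∫ u in (0 : ℝ)..1, tp (k + 1) (b - u) =
      (tp (k + 2) b - tp (k + 2) (b - 1)) / ((k : ℝ) + 2) := by
  have h : ∀ u ∈ uIcc (0 : ℝ) 1, HasDerivAt (fun u => - tp (k + 2) (b - u) / ((k : ℝ) + 2))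
      (tp (k + 1) (b - u)) u := by
    intro u _
    have h1 : HasDerivAt (fun u => b - u) (-1 : ℝ) u := by
      simpa using (hasDerivAt_id u).const_sub b
    have h2 : HasDerivAt (fun u => tp (k + 2) (b - u)) (((k : ℝ) + 2) * tp (k + 1) (b - u) * -1) u :=
      (hasDerivAt_tp k (b - u)).comp u h1
    have hne : ((k : ℝ) + 2) ≠ 0 := by positivity
    have h3 : HasDerivAt (fun u => - tp (k + 2) (b - u) / ((k : ℝ) + 2))
        (-(((k : ℝ) + 2) * tp (k + 1) (b - u) * -1) / ((k : ℝ) + 2)) u := (h2.neg).div_const ((k : ℝ) + 2)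
    refine h3.congr_deriv ?_
    field_simp
  rw [integral_eq_sub_of_hasDerivAt h]
  · simp only [sub_zero]
    have hne : ((k : ℝ) + 2) ≠ 0 := by positivity
    field_simp
    ring
  · apply Continuous.intervalIntegrable
    exact (continuous_tp _).comp (continuous_const.sub continuous_id)

/-- Thue--Morse sign. -/
def sg : ℕ → ℕ → ℚ
  | 0, _ => 1
  | k + 1, j => (if (j / 2 ^ k) % 2 = 1 then -1 else 1) * sg k j

lemma sg_add_mul (k j c : ℕ) : sg k (j + 2 ^ k * c) = sg k j := by
  induction k generalizing j c with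
  | zero => rfl
  | succ k ih =>
    simp only [sg]
    have h1 : (j + 2 ^ (k + 1) * c) / 2 ^ k = j / 2 ^ k + 2 * c := by
      have : 2 ^ (k + 1) * c = 2 ^ k * (2 * c) := by ring
      rw [this, Nat.add_mul_div_left _ _ (by positivity)]
    have h2 : (j / 2 ^ k + 2 * c) % 2 = (j / 2 ^ k) % 2 := by omega
    have h3 : j + 2 ^ (k + 1) * c = j + 2 ^ k * (2 * c) := by ring
    rw [h1, h2, h3, ih]

lemma sg_succ_lt (k j : ℕ) (hj : j < 2 ^ k) : sg (k + 1) j = sg k j := by
  simp [sg, Nat.div_eq_of_lt hj]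

lemma sg_succ_add (k j : ℕ) (hj : j < 2 ^ k) : sg (k + 1) (2 ^ k + j) = - sg k j := by
  have h : (2 ^ k + j) / 2 ^ k = 1 := by
    rw [Nat.add_div_left _ (by positivity), Nat.div_eq_of_lt hj]
  have h2 := sg_add_mul k j 1
  rw [mul_one, add_comm] at h2
  simp [sg, h, h2]

lemma abs_sg (k j : ℕ) : |sg k j| = 1 := by
  induction k with
  | zero => simp [sg]
  | succ k ih =>
    simp only [sg, abs_mul, ih, mul_one]
    split_ifs <;> simp

lemma sum_split (k : ℕ) (g : ℕ → ℝ) :
    ∑ j ∈ Finset.range (2 ^ (k + 1)), (sg (k + 1) j : ℝ) * g j =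
      ∑ j ∈ Finset.range (2 ^ k), (sg k j : ℝ) * (g j - g (2 ^ k + j)) := by
  have : 2 ^ (k + 1) = 2 ^ k + 2 ^ k := by ring
  rw [this, Finset.sum_range_add, ← Finset.sum_add_distrib]
  refine Finset.sum_congr rfl fun j hj => ?_
  have hj' := Finset.mem_range.1 hj
  rw [sg_succ_lt k j hj', sg_succ_add k j hj']
  push_cast
  ring

/-- Coefficient of the closed form. -/
def cK : ℕ → ℚ
  | 0 => 2
  | n + 1 => cK n * 2 ^ (n + 2) / (n + 2)

/-- Closed form for the approximants. -/
lemma fabA_closed (n : ℕ) (x : ℝ) :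
    fabA n x = (cK n : ℝ) * ∑ j ∈ Finset.range (2 ^ (n + 1)),
      (sg (n + 1) j : ℝ) * tp (n + 1) (x - (1 / 2) ^ (n + 2) - (j : ℝ) * (1 / 2) ^ (n + 1)) := by
  induction n generalizing x with
  | zero =>
    have e1 : x - (1 / 2 : ℝ) ^ (0 + 2) - ((0 : ℕ) : ℝ) * (1 / 2) ^ (0 + 1) = x - 1 / 4 := by norm_num
    have e2 : x - (1 / 2 : ℝ) ^ (0 + 2) - ((1 + 0 : ℕ) : ℝ) * (1 / 2) ^ (0 + 1) = x - 3 / 4 := by
      norm_num; ring
    rw [sum_split 0, pow_zero, Finset.sum_range_one, e1, e2]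
    simp only [fabA, cK, sg, tp, pow_one, Rat.cast_one, one_mul]
    push_cast
    rcases le_total x (1 / 4) with h | h
    · rw [max_eq_right (a := x - 1 / 4) (by linarith), max_eq_right (a := x - 3 / 4) (by linarith),
        min_eq_right (by linarith), max_eq_left (by linarith)]
      norm_num
    rcases le_total x (3 / 4) with h' | h'
    · rw [max_eq_left (a := x - 1 / 4) (by linarith), max_eq_right (a := x - 3 / 4) (by linarith),
        min_eq_right (by linarith), max_eq_right (by linarith)]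
      ring
    · rw [max_eq_left (a := x - 1 / 4) (by linarith), max_eq_left (a := x - 3 / 4) (by linarith),
        min_eq_left (by linarith), max_eq_right (by linarith)]
      ring
  | succ n ih =>
    rw [fabA_succ]
    simp_rw [ih]
    rw [intervalIntegral.integral_const_mul, intervalIntegral.integral_finsetSum]
    · rw [sum_split (n + 1)]
      simp_rw [intervalIntegral.integral_const_mul]
      have key : ∀ j : ℕ, ∫ u in (0 : ℝ)..1, tp (n + 1) (2 * x - u - (1 / 2) ^ (n + 2) - (j : ℝ) * (1 / 2) ^ (n + 1))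
          = (2 ^ (n + 2) / ((n : ℝ) + 2)) * (tp (n + 2) (x - (1 / 2) ^ (n + 3) - (j : ℝ) * (1 / 2) ^ (n + 2))
            - tp (n + 2) (x - (1 / 2) ^ (n + 3) - ((2 ^ (n + 1) + j : ℕ) : ℝ) * (1 / 2) ^ (n + 2))) := by
        intro j
        have e1 : ∀ u : ℝ, 2 * x - u - (1 / 2) ^ (n + 2) - (j : ℝ) * (1 / 2) ^ (n + 1) =
            (2 * x - (1 / 2) ^ (n + 2) - (j : ℝ) * (1 / 2) ^ (n + 1)) - u := by intro u; ring
        simp_rw [e1]
        rw [integral_tp]
        have e2 : 2 * x - (1 / 2) ^ (n + 2) - (j : ℝ) * (1 / 2) ^ (n + 1) =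
            2 * (x - (1 / 2) ^ (n + 3) - (j : ℝ) * (1 / 2) ^ (n + 2)) := by
          ring
        have e3 : 2 * x - (1 / 2) ^ (n + 2) - (j : ℝ) * (1 / 2) ^ (n + 1) - 1 =
            2 * (x - (1 / 2) ^ (n + 3) - ((2 ^ (n + 1) + j : ℕ) : ℝ) * (1 / 2) ^ (n + 2)) := by
          push_cast
          have : (2 : ℝ) ^ (n + 1) * (1 / 2) ^ (n + 2) = 1 / 2 := by
            rw [pow_succ (1 / 2 : ℝ) (n + 1), ← mul_assoc, ← mul_pow]; norm_num
          have e4 : ((2 : ℝ) ^ (n + 1) + j) * (1 / 2) ^ (n + 2) = 1 / 2 + j * (1 / 2) ^ (n + 2) := by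
            rw [add_mul, this]
          rw [e4]
          ring
        rw [e3, e2, tp_two_mul, tp_two_mul]
        ring
      simp_rw [key]
      rw [Finset.mul_sum, Finset.mul_sum]
      refine Finset.sum_congr rfl fun j _ => ?_
      simp only [cK]
      push_cast
      ring
    · intro j _
      apply Continuous.intervalIntegrable
      exact continuous_const.mul ((continuous_tp _).comp (by fun_prop))

end Crest.Agent.Lib.BoxFlow
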