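import Mathlib

set_option autoImplicit false

open Encodable Denumerable

noncomputable section

namespace Crest.Agent.Lib.BoxFlow

/-- The raw code of a rational number, for the `Encodable` instance underlying `Denumerable ℚ`. -/
def rawCode (q : ℚ) : ℕ := @Encodable.encode ℚ Rat.instEncodable q

lemma rawCode_eq (q : ℚ) :
    rawCode q = Nat.pair (@Encodable.encode ℤ Int.encodable q.num) q.den := by
  rcases q with ⟨a, b, c, d⟩
  simp only [rawCode]
  rfl

/-- The raw code of an integer, explicitly. -/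
lemma int_encode_natAbs (z : ℤ) : z.natAbs = (@Encodable.encode ℤ Int.encodable z + 1) / 2 := by
  rcases z with n | n
  · show n = (@Encodable.encode ℤ Int.encodable (Int.ofNat n) + 1) / 2
    have : @Encodable.encode ℤ Int.encodable (Int.ofNat n) = 2 * n := rfl
    omega
  · show n + 1 = (@Encodable.encode ℤ Int.encodable (Int.negSucc n) + 1) / 2
    have : @Encodable.encode ℤ Int.encodable (Int.negSucc n) = 2 * n + 1 := rfl
    omega

/-- Valid raw codes. -/
def goodCode (y : ℕ) : Prop :=
  0 < y.unpair.2 ∧ Nat.Coprime ((y.unpair.1 + 1) / 2) y.unpair.2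

instance : DecidablePred goodCode := fun y => by unfold goodCode; infer_instance

lemma mem_range_rawCode (y : ℕ) : y ∈ Set.range rawCode ↔ goodCode y := by
  constructor
  · rintro ⟨q, rfl⟩
    rw [rawCode_eq]
    simp only [goodCode, Nat.unpair_pair]
    rw [← int_encode_natAbs]
    exact ⟨q.pos, q.reduced⟩
  · rintro ⟨h1, h2⟩
    have hz : ∃ z : ℤ, @Encodable.encode ℤ Int.encodable z = y.unpair.1 := by
      rcases Nat.even_or_odd' y.unpair.1 with ⟨k, hk | hk⟩
      · refine ⟨Int.ofNat k, ?_⟩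
        rw [hk]; rfl
      · refine ⟨Int.negSucc k, ?_⟩
        rw [hk]; rfl
    obtain ⟨z, hz⟩ := hz
    have hc : z.natAbs.Coprime y.unpair.2 := by
      rw [int_encode_natAbs, hz]; exact h2
    refine ⟨⟨z, y.unpair.2, h1.ne', hc⟩, ?_⟩
    rw [rawCode_eq]
    simp only [hz, Nat.pair_unpair]

lemma primrecRel_coprime : PrimrecRel (fun a d : ℕ => Nat.Coprime a d) := by
  have h0 : PrimrecRel (fun (k : ℕ) (p : ℕ × ℕ) => ¬ (2 ≤ k ∧ p.1 % k = 0 ∧ p.2 % k = 0)) := by
    refine PrimrecPred.not ?_
    refine PrimrecPred.and ?_ (PrimrecPred.and ?_ ?_)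
    · exact Primrec.nat_le.comp (Primrec.const 2) Primrec.fst
    · exact Primrec.eq.comp (Primrec.nat_mod.comp (Primrec.fst.comp Primrec.snd) Primrec.fst)
        (Primrec.const 0)
    · exact Primrec.eq.comp (Primrec.nat_mod.comp (Primrec.snd.comp Primrec.snd) Primrec.fst)
        (Primrec.const 0)
  have h1 : PrimrecRel (fun (n : ℕ) (p : ℕ × ℕ) => ∀ k ∈ List.range n, ¬ (2 ≤ k ∧ p.1 % k = 0 ∧ p.2 % k = 0)) :=
    h0.forall_mem_list.comp (Primrec.list_range.comp Primrec.fst) Primrec.snd
  have h2 : PrimrecRel (fun a d : ℕ => (a + d ≠ 0) ∧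
      ∀ k ∈ List.range (a + d + 1), ¬ (2 ≤ k ∧ (a, d).1 % k = 0 ∧ (a, d).2 % k = 0)) := by
    refine PrimrecPred.and ?_ ?_
    · exact (Primrec.eq.comp (Primrec.nat_add.comp Primrec.fst Primrec.snd) (Primrec.const 0)).not
    · exact h1.comp (Primrec.succ.comp (Primrec.nat_add.comp Primrec.fst Primrec.snd)) Primrec.id
  refine h2.of_eq ?_
  intro a d
  simp only [List.mem_range]
  constructor
  · rintro ⟨h0, hk⟩
    set g := Nat.gcd a d with hg
    have hg0 : g ≠ 0 := by
      intro h
      rw [hg, Nat.gcd_eq_zero_iff] at h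
      omega
    have hga : g ∣ a := Nat.gcd_dvd_left _ _
    have hgd : g ∣ d := Nat.gcd_dvd_right _ _
    have hle : g ≤ a + d := by
      rcases Nat.eq_zero_or_pos a with rfl | ha
      · have := Nat.le_of_dvd (by omega) hgd
        omega
      · have := Nat.le_of_dvd ha hga
        omega
    by_contra hne
    have hg2 : 2 ≤ g := by
      have : g ≠ 1 := hne
      omega
    exact hk g (by omega) ⟨hg2, Nat.mod_eq_zero_of_dvd hga, Nat.mod_eq_zero_of_dvd hgd⟩
  · intro h
    constructor
    · intro h0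
      have ha : a = 0 := by omega
      have hd : d = 0 := by omega
      subst ha; subst hd
      simp at h
    · rintro k - ⟨h2, h3, h4⟩
      have : k ∣ Nat.gcd a d := Nat.dvd_gcd (Nat.dvd_of_mod_eq_zero h3) (Nat.dvd_of_mod_eq_zero h4)
      rw [show Nat.gcd a d = 1 from h] at this
      have := Nat.le_of_dvd one_pos this
      omega

lemma primrecPred_goodCode : PrimrecPred goodCode := by
  unfold goodCode
  refine PrimrecPred.and ?_ ?_
  · exact Primrec.nat_lt.comp (Primrec.const 0) (Primrec.snd.comp Primrec.unpair)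
  · refine primrecRel_coprime.comp ?_ (Primrec.snd.comp Primrec.unpair)
    exact Primrec.nat_div.comp (Primrec.succ.comp (Primrec.fst.comp Primrec.unpair)) (Primrec.const 2)

/-- Searching for a witness of a computable Boolean predicate. -/
lemma computable_find {α : Type*} [Primcodable α] (p : α → ℕ → Bool) (hp : Computable₂ p)
    (h : ∀ a, ∃ n, p a n = true) : Computable (fun a => Nat.find (h a)) := by
  have h1 : Partrec₂ (fun (a : α) (n : ℕ) => (Part.some (p a n) : Part Bool)) := hp.partrec₂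
  have h2 := Partrec.rfind h1
  refine h2.of_eq_tot ?_
  intro a
  rw [Nat.mem_rfind]
  constructor
  · simpa using Nat.find_spec (h a)
  · intro m hm
    have := Nat.find_min (h a) hm
    simpa using this

section raw

attribute [local instance] Encodable.decidableRangeEncode

/-- The set of raw codes. -/
abbrev rawSet : Set ℕ := Set.range (@Encodable.encode ℚ Rat.instEncodable)

local instance : Infinite rawSet :=
  Infinite.of_injective _ (Equiv.ofInjective _ Encodable.encode_injective).injective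

lemma raw_ofNat (n : ℕ) :
    rawCode (@Denumerable.ofNat ℚ Rat.instDenumerable n) = (Nat.Subtype.ofNat rawSet n : ℕ) := by
  have h1 : @Denumerable.ofNat ℚ Rat.instDenumerable n =
      (@Encodable.equivRangeEncode ℚ Rat.instEncodable).symm (@Denumerable.ofNat rawSet (Nat.Subtype.denumerable rawSet) n) := by
    exact @Denumerable.ofEquiv_ofNat rawSet ℚ (Nat.Subtype.denumerable rawSet) _ n
  have h2 : @Denumerable.ofNat rawSet (Nat.Subtype.denumerable rawSet) n = Nat.Subtype.ofNat rawSet n := by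
    exact @Denumerable.ofEquiv_ofNat ℕ rawSet _ _ n
  rw [h1, h2]
  have h3 := (@Encodable.equivRangeEncode ℚ Rat.instEncodable).apply_symm_apply (Nat.Subtype.ofNat rawSet n)
  have h4 := congrArg Subtype.val h3
  exact h4

lemma exists_next (y : ℕ) : ∃ m, decide (goodCode (y + m + 1)) = true := by
  have hinf : rawSet.Infinite := Set.infinite_coe_iff.1 inferInstance
  obtain ⟨z, hz, hyz⟩ := hinf.exists_gt y
  refine ⟨z - y - 1, ?_⟩
  have e : y + (z - y - 1) + 1 = z := by omega
  rw [e, decide_eq_true_eq, ← mem_range_rawCode]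
  exact hz

/-- The next valid code. -/
def nextCode (y : ℕ) : ℕ := y + Nat.find (exists_next y) + 1

lemma computable_nextCode : Computable nextCode := by
  have h1 : Computable₂ (fun (y m : ℕ) => decide (goodCode (y + m + 1))) := by
    have := primrecPred_goodCode.decide
    exact (this.comp (Primrec.succ.comp (Primrec.nat_add.comp Primrec.fst Primrec.snd))).to_comp
  have h2 := computable_find (fun (y m : ℕ) => decide (goodCode (y + m + 1))) h1 exists_next
  have h3 : Computable (fun y : ℕ => y + Nat.find (exists_next y) + 1) :=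
    Computable.succ.comp ((Primrec.nat_add.to_comp).comp Computable.id h2)
  exact h3

lemma ofNat_succ_val (n : ℕ) :
    (Nat.Subtype.ofNat rawSet (n + 1) : ℕ) = nextCode (Nat.Subtype.ofNat rawSet n : ℕ) := by
  show ((Nat.Subtype.succ (Nat.Subtype.ofNat rawSet n) : rawSet) : ℕ) = _
  set x := Nat.Subtype.ofNat rawSet n
  have hx : ∃ m, (x : ℕ) + m + 1 ∈ rawSet := Nat.Subtype.exists_succ x
  show (x : ℕ) + Nat.find hx + 1 = (x : ℕ) + Nat.find (exists_next x) + 1
  congr 2
  apply le_antisymm
  · apply Nat.find_min'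
    have := Nat.find_spec (exists_next x)
    rw [decide_eq_true_eq, ← mem_range_rawCode] at this
    exact this
  · apply Nat.find_min'
    have := Nat.find_spec hx
    rw [decide_eq_true_eq, ← mem_range_rawCode]
    exact this

lemma computable_raw_ofNat :
    Computable (fun n : ℕ => rawCode (@Denumerable.ofNat ℚ Rat.instDenumerable n)) := by
  have h : Computable (fun n : ℕ => Nat.rec (motive := fun _ => ℕ) (Nat.Subtype.ofNat rawSet 0 : ℕ)
      (fun _ y => nextCode y) n) := by
    refine Computable.nat_rec (f := fun n : ℕ => n) (g := fun _ => (Nat.Subtype.ofNat rawSet 0 : ℕ))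
      (h := fun _ p => nextCode p.2) Computable.id (Computable.const _) ?_
    exact computable_nextCode.comp (Computable.snd.comp Computable.snd)
  refine h.of_eq ?_
  intro n
  rw [raw_ofNat]
  induction n with
  | zero => rfl
  | succ k ih =>
    rw [ofNat_succ_val]
    show nextCode _ = _
    rw [ih]

/-- The raw code is computable for the official encoding of `ℚ`. -/
theorem computable_rawCode : Computable rawCode := by
  have h := computable_raw_ofNat.comp (Computable.encode (α := ℚ))
  refine h.of_eq ?_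
  intro q
  exact congrArg rawCode (@Denumerable.ofNat_encode ℚ Rat.instDenumerable q)

end raw

/-- Positive part of the numerator. -/
def ratPos (q : ℚ) : ℕ := q.num.toNat
/-- Negative part of the numerator. -/
def ratNeg (q : ℚ) : ℕ := (-q.num).toNat

lemma rat_repr (q : ℚ) : ((ratPos q : ℚ) - ratNeg q) / q.den = q := by
  have h : ((ratPos q : ℚ) - ratNeg q) = q.num := by
    have : ((ratPos q : ℤ) - ratNeg q) = q.num := by
      simp only [ratPos, ratNeg]
      omega
    exact_mod_cast this
  rw [h]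
  exact Rat.num_div_den q

lemma rawCode_fst (q : ℚ) : (rawCode q).unpair.1 = @Encodable.encode ℤ Int.encodable q.num := by
  rw [rawCode_eq, Nat.unpair_pair]

lemma rawCode_snd (q : ℚ) : (rawCode q).unpair.2 = q.den := by
  rw [rawCode_eq, Nat.unpair_pair]

theorem computable_den : Computable (fun q : ℚ => q.den) := by
  have h : Computable (fun q : ℚ => (rawCode q).unpair.2) :=
    Computable.snd.comp (Computable.unpair.comp computable_rawCode)
  exact h.of_eq rawCode_snd

lemma ratPos_eq (q : ℚ) :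
    ratPos q = if (rawCode q).unpair.1 % 2 = 0 then (rawCode q).unpair.1 / 2 else 0 := by
  rw [rawCode_fst]
  simp only [ratPos]
  rcases q.num with n | n
  · have : @Encodable.encode ℤ Int.encodable (Int.ofNat n) = 2 * n := rfl
    rw [this]
    simp
  · have : @Encodable.encode ℤ Int.encodable (Int.negSucc n) = 2 * n + 1 := rfl
    rw [this]
    have h2 : (2 * n + 1) % 2 ≠ 0 := by omega
    simp [h2]

lemma ratNeg_eq (q : ℚ) :
    ratNeg q = if (rawCode q).unpair.1 % 2 = 0 then 0 else ((rawCode q).unpair.1 + 1) / 2 := by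
  rw [rawCode_fst]
  simp only [ratNeg]
  rcases q.num with n | n
  · have : @Encodable.encode ℤ Int.encodable (Int.ofNat n) = 2 * n := rfl
    rw [this]
    simp
  · have : @Encodable.encode ℤ Int.encodable (Int.negSucc n) = 2 * n + 1 := rfl
    rw [this]
    have h2 : (2 * n + 1) % 2 ≠ 0 := by omega
    rw [if_neg h2]
    have h3 : -Int.negSucc n = (n : ℤ) + 1 := by
      rw [Int.neg_negSucc]
      push_cast
      ring
    rw [h3]
    have h4 : ((n : ℤ) + 1).toNat = n + 1 := by omega
    rw [h4]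
    omega

private lemma prim_fstmod2 : Primrec (fun z : ℕ => z % 2) :=
  Primrec.nat_mod.comp Primrec.id (Primrec.const 2)

theorem computable_ratPos : Computable ratPos := by
  have h0 : Primrec (fun z : ℕ => if z % 2 = 0 then z / 2 else 0) := by
    refine Primrec.ite ?_ (Primrec.nat_div.comp Primrec.id (Primrec.const 2)) (Primrec.const 0)
    exact Primrec.eq.comp prim_fstmod2 (Primrec.const 0)
  have h1 : Computable (fun q : ℚ => (rawCode q).unpair.1) :=
    Computable.fst.comp (Computable.unpair.comp computable_rawCode)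
  exact (h0.to_comp.comp h1).of_eq fun q => (ratPos_eq q).symm

theorem computable_ratNeg : Computable ratNeg := by
  have h0 : Primrec (fun z : ℕ => if z % 2 = 0 then 0 else (z + 1) / 2) := by
    refine Primrec.ite ?_ (Primrec.const 0) (Primrec.nat_div.comp Primrec.succ (Primrec.const 2))
    exact Primrec.eq.comp prim_fstmod2 (Primrec.const 0)
  have h1 : Computable (fun q : ℚ => (rawCode q).unpair.1) :=
    Computable.fst.comp (Computable.unpair.comp computable_rawCode)
  exact (h0.to_comp.comp h1).of_eq fun q => (ratNeg_eq q).symm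

/-- The rational `(p - m) / (d + 1)`. -/
def ratMk (t : ℕ × ℕ × ℕ) : ℚ := ((t.1 : ℚ) - t.2.1) / (t.2.2 + 1)

lemma ratMk_test (t : ℕ × ℕ × ℕ) (q : ℚ) :
    (t.1 * q.den + ratNeg q * (t.2.2 + 1) = t.2.1 * q.den + ratPos q * (t.2.2 + 1)) ↔ q = ratMk t := by
  have hd : (q.den : ℚ) ≠ 0 := by exact_mod_cast q.den_ne_zero
  have hd' : ((t.2.2 : ℚ) + 1) ≠ 0 := by positivity
  have hq := rat_repr q
  constructor
  · intro h
    have h' : ((t.1 : ℚ) * q.den + ratNeg q * (t.2.2 + 1)) = t.2.1 * q.den + ratPos q * (t.2.2 + 1) := by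
      exact_mod_cast h
    rw [← hq, ratMk, div_eq_div_iff hd hd']
    linarith
  · intro h
    have h' : ((t.1 : ℚ) * q.den + ratNeg q * (t.2.2 + 1)) = t.2.1 * q.den + ratPos q * (t.2.2 + 1) := by
      rw [← hq, ratMk, div_eq_div_iff hd hd'] at h
      linarith
    exact_mod_cast h'

/-- `ratMk` is computable, by search. -/
theorem computable_ratMk : Computable ratMk := by
  let test : ℕ × ℕ × ℕ → ℕ → Bool := fun t n =>
    let q := Denumerable.ofNat ℚ n
    decide (t.1 * q.den + ratNeg q * (t.2.2 + 1) = t.2.1 * q.den + ratPos q * (t.2.2 + 1))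
  have hq : Computable (fun p : (ℕ × ℕ × ℕ) × ℕ => Denumerable.ofNat ℚ p.2) :=
    (Computable.ofNat ℚ).comp Computable.snd
  have hmul := Primrec.nat_mul.to_comp
  have hadd := Primrec.nat_add.to_comp
  have hd1 : Computable (fun p : (ℕ × ℕ × ℕ) × ℕ => p.1.2.2 + 1) :=
    Computable.succ.comp (Computable.snd.comp (Computable.snd.comp Computable.fst))
  have hden : Computable (fun p : (ℕ × ℕ × ℕ) × ℕ => (Denumerable.ofNat ℚ p.2).den) :=
    computable_den.comp hq
  have hpos : Computable (fun p : (ℕ × ℕ × ℕ) × ℕ => ratPos (Denumerable.ofNat ℚ p.2)) :=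
    computable_ratPos.comp hq
  have hneg : Computable (fun p : (ℕ × ℕ × ℕ) × ℕ => ratNeg (Denumerable.ofNat ℚ p.2)) :=
    computable_ratNeg.comp hq
  have hl : Computable (fun p : (ℕ × ℕ × ℕ) × ℕ =>
      p.1.1 * (Denumerable.ofNat ℚ p.2).den + ratNeg (Denumerable.ofNat ℚ p.2) * (p.1.2.2 + 1)) :=
    hadd.comp (hmul.comp (Computable.fst.comp Computable.fst) hden) (hmul.comp hneg hd1)
  have hr : Computable (fun p : (ℕ × ℕ × ℕ) × ℕ =>
      p.1.2.1 * (Denumerable.ofNat ℚ p.2).den + ratPos (Denumerable.ofNat ℚ p.2) * (p.1.2.2 + 1)) :=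
    hadd.comp (hmul.comp (Computable.fst.comp (Computable.snd.comp Computable.fst)) hden) (hmul.comp hpos hd1)
  have htest : Computable₂ test := by
    have heq := (Primrec.eq (α := ℕ)).decide.to_comp
    exact heq.comp hl hr
  have hex : ∀ t, ∃ n, test t n = true := by
    intro t
    refine ⟨@Encodable.encode ℚ Rat.instDenumerable.toEncodable (ratMk t), ?_⟩
    simp only [test, decide_eq_true_eq]
    rw [ratMk_test]
    exact @Denumerable.ofNat_encode ℚ Rat.instDenumerable _
  have hfind := computable_find test htest hex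
  have h := (Computable.ofNat ℚ).comp hfind
  refine h.of_eq ?_
  intro t
  have hs := Nat.find_spec (hex t)
  show Denumerable.ofNat ℚ (Nat.find (hex t)) = ratMk t
  generalize Nat.find (hex t) = n at hs ⊢
  simp only [test, decide_eq_true_eq] at hs
  exact (ratMk_test t _).1 hs

/-! ### Arithmetic on `ℚ` -/

/-- Representation by a triple. -/
def ratRT (q : ℚ) : ℕ × ℕ × ℕ := (ratPos q, ratNeg q, q.den - 1)

theorem computable_ratRT : Computable ratRT :=
  computable_ratPos.pair (computable_ratNeg.pair (Computable.pred.comp computable_den))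

lemma ratMk_ratRT (q : ℚ) : ratMk (ratRT q) = q := by
  have h : ((q.den - 1 : ℕ) : ℚ) + 1 = q.den := by
    have : q.den - 1 + 1 = q.den := Nat.sub_add_cancel q.pos
    exact_mod_cast this
  simp only [ratMk, ratRT, h]
  exact rat_repr q

/-- Addition on triples. -/
def rtAdd (a b : ℕ × ℕ × ℕ) : ℕ × ℕ × ℕ :=
  (a.1 * (b.2.2 + 1) + b.1 * (a.2.2 + 1), a.2.1 * (b.2.2 + 1) + b.2.1 * (a.2.2 + 1),
    (a.2.2 + 1) * (b.2.2 + 1) - 1)

/-- Multiplication on triples. -/
def rtMul (a b : ℕ × ℕ × ℕ) : ℕ × ℕ × ℕ :=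
  (a.1 * b.1 + a.2.1 * b.2.1, a.1 * b.2.1 + a.2.1 * b.1, (a.2.2 + 1) * (b.2.2 + 1) - 1)

lemma den_cast (a b : ℕ) : (((a + 1) * (b + 1) - 1 : ℕ) : ℚ) + 1 = (a + 1) * (b + 1) := by
  have : (a + 1) * (b + 1) - 1 + 1 = (a + 1) * (b + 1) :=
    Nat.sub_add_cancel (Nat.mul_pos (Nat.succ_pos _) (Nat.succ_pos _))
  exact_mod_cast this

lemma ratMk_rtAdd (a b : ℕ × ℕ × ℕ) : ratMk (rtAdd a b) = ratMk a + ratMk b := by
  simp only [ratMk, rtAdd, den_cast]
  push_cast
  field_simp
  ring

lemma ratMk_rtMul (a b : ℕ × ℕ × ℕ) : ratMk (rtMul a b) = ratMk a * ratMk b := by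
  simp only [ratMk, rtMul, den_cast]
  push_cast
  field_simp
  ring

private lemma prim_add_aux : Primrec₂ rtAdd := by
  have hm := Primrec.nat_mul
  have ha := Primrec.nat_add
  have a1 : Primrec (fun p : (ℕ × ℕ × ℕ) × (ℕ × ℕ × ℕ) => p.1.1) := Primrec.fst.comp Primrec.fst
  have a2 : Primrec (fun p : (ℕ × ℕ × ℕ) × (ℕ × ℕ × ℕ) => p.1.2.1) :=
    Primrec.fst.comp (Primrec.snd.comp Primrec.fst)
  have a3 : Primrec (fun p : (ℕ × ℕ × ℕ) × (ℕ × ℕ × ℕ) => p.1.2.2 + 1) :=
    Primrec.succ.comp (Primrec.snd.comp (Primrec.snd.comp Primrec.fst))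
  have b1 : Primrec (fun p : (ℕ × ℕ × ℕ) × (ℕ × ℕ × ℕ) => p.2.1) := Primrec.fst.comp Primrec.snd
  have b2 : Primrec (fun p : (ℕ × ℕ × ℕ) × (ℕ × ℕ × ℕ) => p.2.2.1) :=
    Primrec.fst.comp (Primrec.snd.comp Primrec.snd)
  have b3 : Primrec (fun p : (ℕ × ℕ × ℕ) × (ℕ × ℕ × ℕ) => p.2.2.2 + 1) :=
    Primrec.succ.comp (Primrec.snd.comp (Primrec.snd.comp Primrec.snd))
  exact (ha.comp (hm.comp a1 b3) (hm.comp b1 a3)).pair
    ((ha.comp (hm.comp a2 b3) (hm.comp b2 a3)).pair (Primrec.pred.comp (hm.comp a3 b3)))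

private lemma prim_mul_aux : Primrec₂ rtMul := by
  have hm := Primrec.nat_mul
  have ha := Primrec.nat_add
  have a1 : Primrec (fun p : (ℕ × ℕ × ℕ) × (ℕ × ℕ × ℕ) => p.1.1) := Primrec.fst.comp Primrec.fst
  have a2 : Primrec (fun p : (ℕ × ℕ × ℕ) × (ℕ × ℕ × ℕ) => p.1.2.1) :=
    Primrec.fst.comp (Primrec.snd.comp Primrec.fst)
  have a3 : Primrec (fun p : (ℕ × ℕ × ℕ) × (ℕ × ℕ × ℕ) => p.1.2.2 + 1) :=
    Primrec.succ.comp (Primrec.snd.comp (Primrec.snd.comp Primrec.fst))
  have b1 : Primrec (fun p : (ℕ × ℕ × ℕ) × (ℕ × ℕ × ℕ) => p.2.1) := Primrec.fst.comp Primrec.snd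
  have b2 : Primrec (fun p : (ℕ × ℕ × ℕ) × (ℕ × ℕ × ℕ) => p.2.2.1) :=
    Primrec.fst.comp (Primrec.snd.comp Primrec.snd)
  have b3 : Primrec (fun p : (ℕ × ℕ × ℕ) × (ℕ × ℕ × ℕ) => p.2.2.2 + 1) :=
    Primrec.succ.comp (Primrec.snd.comp (Primrec.snd.comp Primrec.snd))
  exact (ha.comp (hm.comp a1 b1) (hm.comp a2 b2)).pair
    ((ha.comp (hm.comp a1 b2) (hm.comp a2 b1)).pair (Primrec.pred.comp (hm.comp a3 b3)))

/-- Addition of rationals is computable. -/
theorem computable_ratAdd : Computable₂ ((· + ·) : ℚ → ℚ → ℚ) := by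
  have h : Computable (fun p : ℚ × ℚ => ratMk (rtAdd (ratRT p.1) (ratRT p.2))) :=
    computable_ratMk.comp (prim_add_aux.to_comp.comp (computable_ratRT.comp Computable.fst)
      (computable_ratRT.comp Computable.snd))
  refine h.of_eq ?_
  intro p
  rw [ratMk_rtAdd, ratMk_ratRT, ratMk_ratRT]

/-- Multiplication of rationals is computable. -/
theorem computable_ratMul : Computable₂ ((· * ·) : ℚ → ℚ → ℚ) := by
  have h : Computable (fun p : ℚ × ℚ => ratMk (rtMul (ratRT p.1) (ratRT p.2))) :=
    computable_ratMk.comp (prim_mul_aux.to_comp.comp (computable_ratRT.comp Computable.fst)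
      (computable_ratRT.comp Computable.snd))
  refine h.of_eq ?_
  intro p
  rw [ratMk_rtMul, ratMk_ratRT, ratMk_ratRT]

/-- The cast from the naturals is computable. -/
theorem computable_natCast : Computable (fun n : ℕ => (n : ℚ)) := by
  have h : Computable (fun n : ℕ => ratMk (n, 0, 0)) :=
    computable_ratMk.comp (Computable.id.pair (Computable.const (0, 0)))
  refine h.of_eq ?_
  intro n
  simp [ratMk]

/-- The inverse `1 / (n + 1)` is computable. -/
theorem computable_inv_succ : Computable (fun n : ℕ => (1 : ℚ) / ((n : ℚ) + 1)) := by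
  have h : Computable (fun n : ℕ => ratMk (1, 0, n)) :=
    computable_ratMk.comp ((Computable.const 1).pair ((Computable.const 0).pair Computable.id))
  refine h.of_eq ?_
  intro n
  simp [ratMk]

/-- The sign test is computable. -/
theorem computable_ratNonneg : Computable (fun q : ℚ => decide (0 ≤ q)) := by
  have h0 : Primrec (fun p : ℕ × ℕ => decide (p.2 ≤ p.1)) :=
    Primrec.nat_le.decide.comp Primrec.snd Primrec.fst
  have h : Computable (fun q : ℚ => decide (ratNeg q ≤ ratPos q)) :=
    h0.to_comp.comp (computable_ratPos.pair computable_ratNeg)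
  refine h.of_eq ?_
  intro q
  have : ratNeg q ≤ ratPos q ↔ 0 ≤ q := by
    simp only [ratNeg, ratPos]
    rw [← Rat.num_nonneg]
    omega
  simp only [this]

end Crest.Agent.Lib.BoxFlow
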