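import Crest.Agent.Lib.BoxFlow.FabClosed
import Crest.Agent.Lib.BoxFlow.RatComp

set_option autoImplicit false
set_option maxHeartbeats 300000

noncomputable section

namespace Crest.Agent.Lib.BoxFlow

section helpers
variable {α : Type*} [Primcodable α]

lemma cq_const (q : ℚ) : Computable (fun _ : α => q) := Computable.const q

lemma cq_add {f g : α → ℚ} (hf : Computable f) (hg : Computable g) :
    Computable (fun a => f a + g a) := computable_ratAdd.comp hf hg

lemma cq_mul {f g : α → ℚ} (hf : Computable f) (hg : Computable g) :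
    Computable (fun a => f a * g a) := computable_ratMul.comp hf hg

lemma cq_neg {f : α → ℚ} (hf : Computable f) : Computable (fun a => - f a) :=
  (cq_mul (cq_const (-1)) hf).of_eq fun a => by simp

lemma cq_sub {f g : α → ℚ} (hf : Computable f) (hg : Computable g) :
    Computable (fun a => f a - g a) :=
  (cq_add hf (cq_neg hg)).of_eq fun a => by simp [sub_eq_add_neg]

lemma cq_nat {f : α → ℕ} (hf : Computable f) : Computable (fun a => (f a : ℚ)) :=
  computable_natCast.comp hf

lemma cn_add {f g : α → ℕ} (hf : Computable f) (hg : Computable g) :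
    Computable (fun a => f a + g a) := (Primrec.nat_add.to_comp).comp hf hg

lemma cn_mul {f g : α → ℕ} (hf : Computable f) (hg : Computable g) :
    Computable (fun a => f a * g a) := (Primrec.nat_mul.to_comp).comp hf hg

lemma cn_sub {f g : α → ℕ} (hf : Computable f) (hg : Computable g) :
    Computable (fun a => f a - g a) := (Primrec.nat_sub.to_comp).comp hf hg

lemma cn_div {f g : α → ℕ} (hf : Computable f) (hg : Computable g) :
    Computable (fun a => f a / g a) := (Primrec.nat_div.to_comp).comp hf hg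

lemma cn_mod {f g : α → ℕ} (hf : Computable f) (hg : Computable g) :
    Computable (fun a => f a % g a) := (Primrec.nat_mod.to_comp).comp hf hg

lemma cn_const (k : ℕ) : Computable (fun _ : α => k) := Computable.const k

lemma cn_pow {f g : α → ℕ} (hf : Computable f) (hg : Computable g) :
    Computable (fun a => f a ^ g a) := by
  have h : Computable₂ (fun a b : ℕ => a ^ b) := by
    have := (Nat.Primrec.pow)
    have h2 : Primrec₂ (fun a b : ℕ => a ^ b) := by
      apply Primrec₂.unpaired'.1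
      exact this
    exact h2.to_comp
  exact h.comp hf hg

lemma cq_pow {f : α → ℚ} {g : α → ℕ} (hf : Computable f) (hg : Computable g) :
    Computable (fun a => f a ^ g a) := by
  have h2 : Computable₂ (fun (a : α) (p : ℕ × ℚ) => p.2 * f a) :=
    Computable₂.mk (cq_mul (Computable.snd.comp Computable.snd) (hf.comp Computable.fst))
  refine (Computable.nat_rec (f := g) (g := fun _ => (1 : ℚ)) (h := fun a p => p.2 * f a)
    hg (cq_const 1) h2).of_eq fun a => ?_
  induction g a with
  | zero => simp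
  | succ n ih => simp only [pow_succ]; rw [← ih]

lemma cq_sum {f : α → ℕ → ℚ} {g : α → ℕ} (hf : Computable₂ f) (hg : Computable g) :
    Computable (fun a => ∑ j ∈ Finset.range (g a), f a j) := by
  have h2 : Computable₂ (fun (a : α) (p : ℕ × ℚ) => p.2 + f a p.1) :=
    Computable₂.mk (cq_add (Computable.snd.comp Computable.snd)
        (hf.comp Computable.fst (Computable.fst.comp Computable.snd)))
  refine (Computable.nat_rec (f := g) (g := fun _ => (0 : ℚ)) (h := fun a p => p.2 + f a p.1)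
    hg (cq_const 0) h2).of_eq fun a => ?_
  induction g a with
  | zero => simp
  | succ n ih => simp only [Finset.sum_range_succ]; rw [← ih]

lemma cq_max0 {f : α → ℚ} (hf : Computable f) : Computable (fun a => max (f a) 0) := by
  refine (Computable.cond (c := fun a => decide (0 ≤ f a)) (computable_ratNonneg.comp hf) hf
    (cq_const 0)).of_eq fun a => ?_
  by_cases h0 : 0 ≤ f a
  · simp [h0]
  · simp [h0, le_of_not_ge h0]

end helpers



lemma computable_sg : Computable (fun p : ℕ × ℕ => sg p.1 p.2) := by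
  have hbit : Computable fun a : (ℕ × ℕ) × ℕ × ℚ => decide ((a.1.2 / 2 ^ a.2.1) % 2 = 1) := by
    have h1 : Computable fun a : (ℕ × ℕ) × ℕ × ℚ => (a.1.2 / 2 ^ a.2.1) % 2 :=
      cn_mod (cn_div (Computable.snd.comp Computable.fst)
        (cn_pow (cn_const 2) (Computable.fst.comp Computable.snd))) (cn_const 2)
    have h2 : Primrec₂ (fun a b : ℕ => decide (a = b)) := Primrec.eq.decide
    exact h2.to_comp.comp h1 (cn_const 1)
  have h3 : Computable fun a : (ℕ × ℕ) × ℕ × ℚ =>
      (bif decide ((a.1.2 / 2 ^ a.2.1) % 2 = 1) then (-1 : ℚ) else 1) :=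
    Computable.cond hbit (cq_const _) (cq_const _)
  have h4 : Computable₂ (fun (a : ℕ × ℕ) (p : ℕ × ℚ) =>
      (bif decide ((a.2 / 2 ^ p.1) % 2 = 1) then (-1 : ℚ) else 1) * p.2) :=
    Computable₂.mk (cq_mul h3 (Computable.snd.comp Computable.snd))
  refine (Computable.nat_rec (f := fun a : ℕ × ℕ => a.1) (g := fun _ => (1 : ℚ))
    (h := fun a p => (bif decide ((a.2 / 2 ^ p.1) % 2 = 1) then (-1 : ℚ) else 1) * p.2)
    Computable.fst (cq_const 1) h4).of_eq fun p => ?_
  rcases p with ⟨k, j⟩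
  simp only
  induction k with
  | zero => rfl
  | succ k ih =>
    simp only [sg]
    rw [← ih]
    by_cases h0 : j / 2 ^ k % 2 = 1 <;> simp [h0]

lemma computable_cK : Computable cK := by
  have h4 : Computable₂ (fun (_ : ℕ) (p : ℕ × ℚ) =>
      p.2 * ((2 : ℚ) ^ (p.1 + 2) * (1 / (((p.1 + 1 : ℕ) : ℚ) + 1)))) := by
    refine Computable₂.mk (cq_mul (Computable.snd.comp Computable.snd) (cq_mul ?_ ?_))
    · exact cq_pow (cq_const 2) (cn_add (Computable.fst.comp Computable.snd) (cn_const 2))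
    · exact computable_inv_succ.comp (cn_add (Computable.fst.comp Computable.snd) (cn_const 1))
  refine (Computable.nat_rec (f := fun n : ℕ => n) (g := fun _ => (2 : ℚ))
    (h := fun _ p => p.2 * ((2 : ℚ) ^ (p.1 + 2) * (1 / (((p.1 + 1 : ℕ) : ℚ) + 1))))
    Computable.id (cq_const 2) h4).of_eq fun n => ?_
  induction n with
  | zero => rfl
  | succ n ih =>
    simp only [cK]
    rw [← ih]
    push_cast
    have : ((n : ℚ) + 1 + 1) = n + 2 := by ring
    rw [this]
    have h0 : ((n : ℚ) + 2) ≠ 0 := by positivity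
    field_simp

/-- Rational truncated power. -/
def tpq (k : ℕ) (y : ℚ) : ℚ := (max y 0) ^ k

lemma tpq_cast (k : ℕ) (y : ℚ) : ((tpq k y : ℚ) : ℝ) = tp k y := by
  simp [tpq, tp]

/-- Rational values of the approximants. -/
def fabQ (n : ℕ) (q : ℚ) : ℚ :=
  cK n * ∑ j ∈ Finset.range (2 ^ (n + 1)),
    sg (n + 1) j * tpq (n + 1) (q - (1 / 2) ^ (n + 2) - (j : ℚ) * (1 / 2) ^ (n + 1))

lemma fabQ_cast (n : ℕ) (q : ℚ) : ((fabQ n q : ℚ) : ℝ) = fabA n q := by
  rw [fabA_closed, fabQ]
  push_cast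
  simp_rw [tpq_cast]
  push_cast
  rfl


lemma computable_fabQ : Computable (fun p : ℕ × ℚ => fabQ p.1 p.2) := by
  have hn : Computable fun a : (ℕ × ℚ) × ℕ => a.1.1 := Computable.fst.comp Computable.fst
  have hq : Computable fun a : (ℕ × ℚ) × ℕ => a.1.2 := Computable.snd.comp Computable.fst
  have hj : Computable fun a : (ℕ × ℚ) × ℕ => a.2 := Computable.snd
  have h1 : Computable fun a : (ℕ × ℚ) × ℕ =>
      a.1.2 - (1 / 2) ^ (a.1.1 + 2) - ((a.2 : ℚ)) * (1 / 2) ^ (a.1.1 + 1) :=
    cq_sub (cq_sub hq (cq_pow (cq_const _) (cn_add hn (cn_const 2))))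
      (cq_mul (cq_nat hj) (cq_pow (cq_const _) (cn_add hn (cn_const 1))))
  have h2 : Computable fun a : (ℕ × ℚ) × ℕ => tpq (a.1.1 + 1)
      (a.1.2 - (1 / 2) ^ (a.1.1 + 2) - ((a.2 : ℚ)) * (1 / 2) ^ (a.1.1 + 1)) :=
    cq_pow (cq_max0 h1) (cn_add hn (cn_const 1))
  have h3a : Computable fun a : (ℕ × ℚ) × ℕ => sg (a.1.1 + 1) a.2 := by
    have := computable_sg.comp ((cn_add hn (cn_const 1)).pair hj)
    exact this
  have h3b : Computable fun a : (ℕ × ℚ) × ℕ => sg (a.1.1 + 1) a.2 * tpq (a.1.1 + 1)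
      (a.1.2 - (1 / 2) ^ (a.1.1 + 2) - ((a.2 : ℚ)) * (1 / 2) ^ (a.1.1 + 1)) :=
    cq_mul h3a h2
  have h3 : Computable₂ fun (a : ℕ × ℚ) (j : ℕ) => sg (a.1 + 1) j * tpq (a.1 + 1)
      (a.2 - (1 / 2) ^ (a.1 + 2) - ((j : ℚ)) * (1 / 2) ^ (a.1 + 1)) :=
    Computable₂.mk h3b
  have h4 : Computable fun a : ℕ × ℚ => ∑ j ∈ Finset.range (2 ^ (a.1 + 1)), sg (a.1 + 1) j *
      tpq (a.1 + 1) (a.2 - (1 / 2) ^ (a.1 + 2) - ((j : ℚ)) * (1 / 2) ^ (a.1 + 1)) :=
    cq_sum (g := fun a : ℕ × ℚ => 2 ^ (a.1 + 1)) h3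
      (cn_pow (cn_const 2) (cn_add Computable.fst (cn_const 1)))
  have h5 := cq_mul (computable_cK.comp Computable.fst) h4
  refine h5.of_eq fun p => ?_
  simp only [fabQ]

end Crest.Agent.Lib.BoxFlow
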