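import Mathlib

set_option autoImplicit false

open MeasureTheory Filter Topology
open scoped Interval

noncomputable section

namespace Crest.Agent.Lib.BoxFlow

/-- Approximants of the Fabius function. -/
def fabA : ℕ → ℝ → ℝ
  | 0, x => max 0 (min 1 (2 * x - 1 / 2))
  | n + 1, x => ∫ u in (0 : ℝ)..1, fabA n (2 * x - u)

lemma fabA_succ (n : ℕ) (x : ℝ) : fabA (n + 1) x = ∫ u in (0 : ℝ)..1, fabA n (2 * x - u) := rfl

lemma fabA_succ' (n : ℕ) (x : ℝ) : fabA (n + 1) x = ∫ v in (2 * x - 1)..(2 * x), fabA n v := by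
  rw [fabA_succ, intervalIntegral.integral_comp_sub_left (fun v => fabA n v) (2 * x)]
  simp

lemma continuous_fabA_zero : Continuous (fabA 0) := by
  have : Continuous fun x : ℝ => max 0 (min 1 (2 * x - 1 / 2)) := by fun_prop
  exact this

lemma hasDerivAt_fabA_succ (n : ℕ) (hc : Continuous (fabA n)) (x : ℝ) :
    HasDerivAt (fabA (n + 1)) (2 * (fabA n (2 * x) - fabA n (2 * x - 1))) x := by
  have hG : ∀ y, HasDerivAt (fun u => ∫ v in (0 : ℝ)..u, fabA n v) (fabA n y) y :=
    fun y => (hc.integral_hasStrictDerivAt 0 y).hasDerivAt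
  have h1 : HasDerivAt (fun x : ℝ => ∫ v in (0 : ℝ)..(2 * x), fabA n v) (fabA n (2 * x) * 2) x := by
    have h0 : HasDerivAt (fun x : ℝ => 2 * x) 2 x := by
      simpa using (hasDerivAt_id x).const_mul (2 : ℝ)
    exact (hG (2 * x)).comp x h0
  have h2 : HasDerivAt (fun x : ℝ => ∫ v in (0 : ℝ)..(2 * x - 1), fabA n v) (fabA n (2 * x - 1) * 2) x := by
    have h0 : HasDerivAt (fun x : ℝ => 2 * x - 1) 2 x := by
      simpa using ((hasDerivAt_id x).const_mul (2 : ℝ)).sub_const 1
    exact (hG (2 * x - 1)).comp x h0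
  have h3 := h1.sub h2
  have e : fabA (n + 1) = (fun x : ℝ => ∫ v in (0 : ℝ)..(2 * x), fabA n v) -
      (fun x : ℝ => ∫ v in (0 : ℝ)..(2 * x - 1), fabA n v) := by
    funext y
    rw [fabA_succ', Pi.sub_apply, intervalIntegral.integral_interval_sub_left]
    · exact hc.intervalIntegrable _ _
    · exact hc.intervalIntegrable _ _
  rw [e]
  have e2 : 2 * (fabA n (2 * x) - fabA n (2 * x - 1)) = fabA n (2 * x) * 2 - fabA n (2 * x - 1) * 2 := by
    ring
  rw [e2]
  exact h3

lemma continuous_fabA (n : ℕ) : Continuous (fabA n) := by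
  induction n with
  | zero => exact continuous_fabA_zero
  | succ n ih =>
    rw [continuous_iff_continuousAt]
    intro x
    exact (hasDerivAt_fabA_succ n ih x).continuousAt

lemma hasDerivAt_fabA (n : ℕ) (x : ℝ) :
    HasDerivAt (fabA (n + 1)) (2 * (fabA n (2 * x) - fabA n (2 * x - 1))) x :=
  hasDerivAt_fabA_succ n (continuous_fabA n) x

lemma fabA_of_nonpos (n : ℕ) (x : ℝ) (hx : x ≤ 0) : fabA n x = 0 := by
  induction n generalizing x with
  | zero =>
    have : 2 * x - 1 / 2 ≤ 0 := by linarith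
    show max 0 (min 1 (2 * x - 1 / 2)) = 0
    rw [min_eq_right (this.trans zero_le_one)]
    exact max_eq_left this
  | succ n ih =>
    rw [fabA_succ]
    have : ∀ u ∈ Set.uIcc (0 : ℝ) 1, fabA n (2 * x - u) = 0 := by
      intro u hu
      rw [Set.uIcc_of_le zero_le_one] at hu
      exact ih _ (by linarith [hu.1])
    rw [intervalIntegral.integral_congr this]
    simp

lemma fabA_of_one_le (n : ℕ) (x : ℝ) (hx : 1 ≤ x) : fabA n x = 1 := by
  induction n generalizing x with
  | zero =>
    have : 1 ≤ 2 * x - 1 / 2 := by linarith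
    show max 0 (min 1 (2 * x - 1 / 2)) = 1
    rw [min_eq_left this]
    exact max_eq_right zero_le_one
  | succ n ih =>
    rw [fabA_succ]
    have : ∀ u ∈ Set.uIcc (0 : ℝ) 1, fabA n (2 * x - u) = 1 := by
      intro u hu
      rw [Set.uIcc_of_le zero_le_one] at hu
      exact ih _ (by linarith [hu.2])
    rw [intervalIntegral.integral_congr this]
    simp

lemma fabA_nonneg (n : ℕ) (x : ℝ) : 0 ≤ fabA n x := by
  induction n generalizing x with
  | zero => exact le_max_left _ _
  | succ n ih =>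
    rw [fabA_succ]
    exact intervalIntegral.integral_nonneg zero_le_one fun u _ => ih _

lemma continuous_comp_sub (n : ℕ) (x : ℝ) : Continuous fun u => fabA n (2 * x - u) :=
  (continuous_fabA n).comp (by fun_prop)

lemma fabA_le_one (n : ℕ) (x : ℝ) : fabA n x ≤ 1 := by
  induction n generalizing x with
  | zero =>
    have h1 : min 1 (2 * x - 1 / 2) ≤ 1 := min_le_left _ _
    exact max_le zero_le_one h1
  | succ n ih =>
    rw [fabA_succ]
    have : ∫ u in (0 : ℝ)..1, fabA n (2 * x - u) ≤ ∫ _u in (0 : ℝ)..1, (1 : ℝ) := by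
      apply intervalIntegral.integral_mono_on zero_le_one
      · exact (continuous_comp_sub n x).intervalIntegrable _ _
      · exact continuous_const.intervalIntegrable _ _
      · intro u _
        exact ih _
    simpa using this

lemma fabA_symm (n : ℕ) (x : ℝ) : fabA n (1 - x) = 1 - fabA n x := by
  induction n generalizing x with
  | zero =>
    simp only [fabA, max_def, min_def]
    split_ifs <;> linarith
  | succ n ih =>
    have e1 : ∀ u : ℝ, fabA n (2 * (1 - x) - u) = 1 - fabA n (2 * x - (1 - u)) := by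
      intro u
      rw [← ih]
      congr 1
      ring
    rw [fabA_succ, fabA_succ]
    simp only [e1]
    rw [intervalIntegral.integral_sub (continuous_const.intervalIntegrable _ _)]
    · congr 1
      · simp
      · have := intervalIntegral.integral_comp_sub_left (a := (0 : ℝ)) (b := 1)
          (fun u => fabA n (2 * x - u)) 1
        simpa using this
    · exact ((continuous_fabA n).comp (by fun_prop)).intervalIntegrable _ _

/-- Difference of consecutive approximants. -/
def fabD (n : ℕ) (x : ℝ) : ℝ := fabA (n + 1) x - fabA n x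

lemma fabD_of_nonpos (n : ℕ) (x : ℝ) (hx : x ≤ 0) : fabD n x = 0 := by
  simp [fabD, fabA_of_nonpos _ x hx]

lemma fabD_of_one_le (n : ℕ) (x : ℝ) (hx : 1 ≤ x) : fabD n x = 0 := by
  simp [fabD, fabA_of_one_le _ x hx]

lemma fabD_symm (n : ℕ) (x : ℝ) : fabD n (1 - x) = - fabD n x := by
  simp only [fabD, fabA_symm]
  ring

lemma fabD_half (n : ℕ) : fabD n (1 / 2) = 0 := by
  have := fabD_symm n (1 / 2)
  norm_num at this
  linarith

lemma hasDerivAt_fabD (n : ℕ) (x : ℝ) :
    HasDerivAt (fabD (n + 1)) (2 * (fabD n (2 * x) - fabD n (2 * x - 1))) x := by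
  have h := (hasDerivAt_fabA (n + 1) x).sub (hasDerivAt_fabA n x)
  have e : 2 * (fabD n (2 * x) - fabD n (2 * x - 1)) =
      2 * (fabA (n + 1) (2 * x) - fabA (n + 1) (2 * x - 1)) -
        2 * (fabA n (2 * x) - fabA n (2 * x - 1)) := by
    simp only [fabD]
    ring
  rw [e]
  exact h

/-- The contraction estimate. -/
lemma abs_fabD_le (n : ℕ) (x : ℝ) : |fabD n x| ≤ (1 / 2) ^ n := by
  induction n generalizing x with
  | zero =>
    have h1 := fabA_nonneg 1 x
    have h2 := fabA_le_one 1 x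
    have h3 := fabA_nonneg 0 x
    have h4 := fabA_le_one 0 x
    simp only [fabD, pow_zero]
    rw [abs_le]
    constructor <;> linarith
  | succ n ih =>
    -- derivative bound on `[0, 1/2]`
    have hder : ∀ y ∈ Set.Icc (0 : ℝ) (1 / 2),
        HasDerivWithinAt (fabD (n + 1)) (2 * fabD n (2 * y)) (Set.Icc (0 : ℝ) (1 / 2)) y := by
      intro y hy
      have h := hasDerivAt_fabD n y
      have h0 : fabD n (2 * y - 1) = 0 := fabD_of_nonpos n _ (by linarith [hy.2])
      rw [h0, sub_zero] at h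
      exact h.hasDerivWithinAt
    have hbd : ∀ y ∈ Set.Icc (0 : ℝ) (1 / 2), ‖2 * fabD n (2 * y)‖ ≤ 2 * (1 / 2) ^ n := by
      intro y _
      rw [norm_mul, Real.norm_eq_abs, Real.norm_eq_abs, abs_of_pos (by norm_num : (0 : ℝ) < 2)]
      exact mul_le_mul_of_nonneg_left (ih _) (by norm_num)
    have hmv := fun (a b : ℝ) (ha : a ∈ Set.Icc (0 : ℝ) (1 / 2)) (hb : b ∈ Set.Icc (0 : ℝ) (1 / 2)) =>
      Convex.norm_image_sub_le_of_norm_hasDerivWithin_le hder hbd (convex_Icc _ _) ha hb
    have hq : ∀ y ∈ Set.Icc (0 : ℝ) (1 / 2), |fabD (n + 1) y| ≤ (1 / 2) ^ (n + 1) := by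
      intro y hy
      have hp : (0 : ℝ) < (1 / 2) ^ n := by positivity
      rw [pow_succ]
      by_cases hy4 : y ≤ 1 / 4
      · have := hmv 0 y ⟨le_rfl, by norm_num⟩ hy
        rw [fabD_of_nonpos _ 0 le_rfl, sub_zero, sub_zero, Real.norm_eq_abs, Real.norm_eq_abs,
          abs_of_nonneg hy.1] at this
        nlinarith
      · have := hmv (1 / 2) y ⟨by norm_num, le_rfl⟩ hy
        rw [fabD_half, sub_zero, Real.norm_eq_abs, Real.norm_eq_abs, abs_sub_comm,
          abs_of_nonneg (show (0 : ℝ) ≤ 1 / 2 - y by linarith [hy.2])] at this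
        push Not at hy4
        nlinarith
    rcases le_or_gt x 0 with hx0 | hx0
    · rw [fabD_of_nonpos _ x hx0, abs_zero]
      positivity
    rcases le_or_gt x (1 / 2) with hx1 | hx1
    · exact hq x ⟨hx0.le, hx1⟩
    rcases le_or_gt 1 x with hx2 | hx2
    · rw [fabD_of_one_le _ x hx2, abs_zero]
      positivity
    · have := hq (1 - x) ⟨by linarith, by linarith⟩
      rwa [fabD_symm, abs_neg] at this

lemma dist_fabA_le (x : ℝ) (n : ℕ) : dist (fabA n x) (fabA (n + 1) x) ≤ 1 * (1 / 2) ^ n := by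
  rw [dist_comm, Real.dist_eq, one_mul]
  exact abs_fabD_le n x

/-- The Fabius function. -/
def fab (x : ℝ) : ℝ := limUnder atTop (fun n => fabA n x)

lemma tendsto_fabA (x : ℝ) : Tendsto (fun n => fabA n x) atTop (𝓝 (fab x)) := by
  have h : CauchySeq (fun n => fabA n x) :=
    cauchySeq_of_le_geometric (1 / 2) 1 (by norm_num) (dist_fabA_le x)
  exact h.tendsto_limUnder

lemma abs_fabA_sub_fab (x : ℝ) (n : ℕ) : |fabA n x - fab x| ≤ 2 * (1 / 2) ^ n := by
  have h := dist_le_of_le_geometric_of_tendsto (1 / 2) 1 (by norm_num) (dist_fabA_le x)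
    (tendsto_fabA x) n
  rw [Real.dist_eq] at h
  calc |fabA n x - fab x| ≤ 1 * (1 / 2) ^ n / (1 - 1 / 2) := h
    _ = 2 * (1 / 2) ^ n := by ring

lemma fab_of_nonpos (x : ℝ) (hx : x ≤ 0) : fab x = 0 := by
  have h := tendsto_fabA x
  simp only [fabA_of_nonpos _ x hx] at h
  exact tendsto_nhds_unique h tendsto_const_nhds

lemma fab_of_one_le (x : ℝ) (hx : 1 ≤ x) : fab x = 1 := by
  have h := tendsto_fabA x
  simp only [fabA_of_one_le _ x hx] at h
  exact tendsto_nhds_unique h tendsto_const_nhds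

lemma fab_nonneg (x : ℝ) : 0 ≤ fab x :=
  ge_of_tendsto' (tendsto_fabA x) fun n => fabA_nonneg n x

lemma fab_le_one (x : ℝ) : fab x ≤ 1 :=
  le_of_tendsto' (tendsto_fabA x) fun n => fabA_le_one n x

lemma abs_fab_le (x : ℝ) : |fab x| ≤ 1 := by
  rw [abs_of_nonneg (fab_nonneg x)]
  exact fab_le_one x

lemma fab_symm (x : ℝ) : fab (1 - x) = 1 - fab x := by
  have h1 := tendsto_fabA (1 - x)
  simp only [fabA_symm] at h1
  exact tendsto_nhds_unique h1 (tendsto_const_nhds.sub (tendsto_fabA x))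

lemma fab_half : fab (1 / 2) = 1 / 2 := by
  have := fab_symm (1 / 2)
  norm_num at this
  linarith

/-- The delay-differential equation of the Fabius function. -/
theorem hasDerivAt_fab (x : ℝ) : HasDerivAt fab (2 * (fab (2 * x) - fab (2 * x - 1))) x := by
  have hu : TendstoUniformly (fun (n : ℕ) (y : ℝ) => 2 * (fabA n (2 * y) - fabA n (2 * y - 1)))
      (fun y => 2 * (fab (2 * y) - fab (2 * y - 1))) atTop := by
    rw [Metric.tendstoUniformly_iff]
    intro ε hε
    have hpow : Tendsto (fun n : ℕ => 8 * (1 / 2 : ℝ) ^ n) atTop (𝓝 (8 * 0)) :=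
      (tendsto_pow_atTop_nhds_zero_of_lt_one (by norm_num) (by norm_num)).const_mul 8
    rw [mul_zero] at hpow
    filter_upwards [hpow.eventually (gt_mem_nhds hε)] with n hn y
    rw [Real.dist_eq]
    have h1 := abs_fabA_sub_fab (2 * y) n
    have h2 := abs_fabA_sub_fab (2 * y - 1) n
    have e : 2 * (fab (2 * y) - fab (2 * y - 1)) - 2 * (fabA n (2 * y) - fabA n (2 * y - 1)) =
        2 * ((fabA n (2 * y - 1) - fab (2 * y - 1)) - (fabA n (2 * y) - fab (2 * y))) := by ring
    rw [e, abs_mul, abs_of_pos (by norm_num : (0 : ℝ) < 2)]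
    have h3 := abs_sub (fabA n (2 * y - 1) - fab (2 * y - 1)) (fabA n (2 * y) - fab (2 * y))
    nlinarith
  have hf : ∀ y, Tendsto (fun n => fabA (n + 1) y) atTop (𝓝 (fab y)) := fun y =>
    (tendsto_add_atTop_iff_nat 1).2 (tendsto_fabA y)
  exact hasDerivAt_of_tendstoUniformly hu (Eventually.of_forall fun n y => hasDerivAt_fabA n y) hf x

end Crest.Agent.Lib.BoxFlow
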