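import Crest.Agent.Lib.BoxFlow.Eff1
import Crest.Prelude.Def_BoxFlow

set_option autoImplicit false
set_option maxHeartbeats 300000

open scoped ContDiff
open Set Crest.AnalysisR.BoxFlow

noncomputable section

namespace Crest.Agent.Lib.BoxFlow

/-- index of rational evaluation points -/
abbrev EvIdx := List (Fin 4) × ℚ × (Fin 3 → ℚ)

structure Eff' (U : Field) : Prop where
  approx : ∀ j : Fin 3, CompReal (fun z : EvIdx => mixedDeriv z.1 U ((z.2.1 : ℝ), ratPoint z.2.2) j)
  bound : ∃ b : List (Fin 4) → ℕ, Computable b ∧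
    ∀ (ds : List (Fin 4)) (p : ℝ × (Fin 3 → ℝ)) (j : Fin 3), |mixedDeriv ds U p j| ≤ (b ds : ℝ)

lemma Eff'.effective {U : Field} (h : Eff' U) : Effective U := by
  choose A hA hA' using h.approx
  obtain ⟨b, hb, hb'⟩ := h.bound
  have hmap : Computable fun z : List (Fin 4) × (ℚ × (Fin 3 → ℚ)) × ℕ =>
      (((z.1, z.2.1.1, z.2.1.2), z.2.2) : EvIdx × ℕ) := by
    have h1 : Computable fun z : List (Fin 4) × (ℚ × (Fin 3 → ℚ)) × ℕ => z.1 := Computable.fst
    have h2 : Computable fun z : List (Fin 4) × (ℚ × (Fin 3 → ℚ)) × ℕ => z.2.1.1 :=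
      Computable.fst.comp (Computable.fst.comp Computable.snd)
    have h3 : Computable fun z : List (Fin 4) × (ℚ × (Fin 3 → ℚ)) × ℕ => z.2.1.2 :=
      Computable.snd.comp (Computable.fst.comp Computable.snd)
    have h4 : Computable fun z : List (Fin 4) × (ℚ × (Fin 3 → ℚ)) × ℕ => z.2.2 :=
      Computable.snd.comp Computable.snd
    exact (h1.pair (h2.pair h3)).pair h4
  refine ⟨fun z j => A j ((z.1, z.2.1.1, z.2.1.2), z.2.2), b, ?_, hb, ?_, hb'⟩
  · have h5 : ∀ j, Computable fun z : List (Fin 4) × (ℚ × (Fin 3 → ℚ)) × ℕ =>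
        A j ((z.1, z.2.1.1, z.2.1.2), z.2.2) := fun j => (hA j).comp hmap
    have h6 := Primrec.vector_get'.to_comp.comp (Computable.vector_ofFn h5)
    refine h6.of_eq fun z => ?_
    funext j
    simp
  · intro ds t q n j
    exact hA' j (ds, t, q) n

lemma contDiff_mixedDeriv {U : Field} (hU : ContDiff ℝ ∞ U) (ds : List (Fin 4)) :
    ContDiff ℝ ∞ (mixedDeriv ds U) := by
  induction ds with
  | nil => exact hU
  | cons d ds ih =>
    have h1 : ContDiff ℝ ∞ (fderiv ℝ (mixedDeriv ds U)) :=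
      ih.fderiv_right (m := ∞) (by simp)
    exact h1.clm_apply contDiff_const

lemma differentiable_of_smooth {E F : Type*} [NormedAddCommGroup E] [NormedSpace ℝ E]
    [NormedAddCommGroup F] [NormedSpace ℝ F] {f : E → F} (h : ContDiff ℝ ∞ f) : Differentiable ℝ f :=
  h.differentiable (by simp)

lemma mixedDeriv_add {U V : Field} (hU : ContDiff ℝ ∞ U) (hV : ContDiff ℝ ∞ V) (ds : List (Fin 4)) :
    mixedDeriv ds (fun p => U p + V p) = fun p => mixedDeriv ds U p + mixedDeriv ds V p := by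
  induction ds with
  | nil => rfl
  | cons d ds ih =>
    funext p
    simp only [mixedDeriv]
    rw [ih, fderiv_fun_add (differentiable_of_smooth (contDiff_mixedDeriv hU ds) p)
      (differentiable_of_smooth (contDiff_mixedDeriv hV ds) p)]
    rfl

lemma Eff'.add {U V : Field} (hU : ContDiff ℝ ∞ U) (hV : ContDiff ℝ ∞ V) (h : Eff' U) (h' : Eff' V) :
    Eff' (fun p => U p + V p) where
  approx j := by
    have := (h.approx j).add (h'.approx j)
    convert this using 2 with z
    rw [mixedDeriv_add hU hV]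
    rfl
  bound := by
    obtain ⟨b, hb, hb'⟩ := h.bound
    obtain ⟨b2, hb2, hb2'⟩ := h'.bound
    refine ⟨fun ds => b ds + b2 ds, cn_add hb hb2, fun ds p j => ?_⟩
    rw [mixedDeriv_add hU hV]
    push_cast
    exact (abs_add_le _ _).trans (add_le_add (hb' _ _ _) (hb2' _ _ _))

/-- count of list entries with weight `δ`. -/
def cnt (δ : Fin 4 → ℕ) (ds : List (Fin 4)) : ℕ := ds.foldr (fun d n => n + δ d) 0

lemma primrec_cnt (δ : Fin 4 → ℕ) : Primrec (cnt δ) := by
  have h1 : Primrec₂ (fun (_ : List (Fin 4)) (p : Fin 4 × ℕ) => p.2 + δ p.1) := by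
    have h2 : Primrec (fun p : List (Fin 4) × Fin 4 × ℕ => p.2.2) := Primrec.snd.comp Primrec.snd
    have h3 : Primrec (fun p : List (Fin 4) × Fin 4 × ℕ => δ p.2.1) :=
      (Primrec.dom_finite δ).comp (Primrec.fst.comp Primrec.snd)
    exact Primrec.nat_add.comp h2 h3
  exact Primrec.list_foldr (f := fun ds => ds) (g := fun _ => 0)
    (h := fun _ p => p.2 + δ p.1) Primrec.id (Primrec.const 0) h1

lemma computable_cnt (δ : Fin 4 → ℕ) : Computable (cnt δ) := (primrec_cnt δ).to_comp

@[simp] lemma cnt_nil (δ : Fin 4 → ℕ) : cnt δ [] = 0 := rfl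
@[simp] lemma cnt_cons (δ : Fin 4 → ℕ) (d : Fin 4) (ds : List (Fin 4)) :
    cnt δ (d :: ds) = cnt δ ds + δ d := rfl

lemma direction_zero : direction 0 = (1, 0) := by simp [direction]

lemma direction_succ (k : Fin 3) : direction k.succ = (0, Pi.single k 1) := by
  have h : k.succ ≠ 0 := Fin.succ_ne_zero k
  simp [direction, h]

/-- Weight of the time direction. -/
def δt (d : Fin 4) : ℕ := if d = 0 then 1 else 0
/-- Weight of a space direction. -/
def δs (j : Fin 3) (d : Fin 4) : ℕ := if d = j.succ then 1 else 0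

/-- Time rescaling of a field. -/
def tscale (κ α β : ℚ) (U : Field) : Field :=
  fun p => (κ : ℝ) • U ((α : ℝ) * p.1 + (β : ℝ), p.2)

/-- Affine change of time. -/
def tmap (α β : ℚ) (p : ℝ × (Fin 3 → ℝ)) : ℝ × (Fin 3 → ℝ) := ((α : ℝ) * p.1 + (β : ℝ), p.2)

lemma contDiff_tmap (α β : ℚ) : ContDiff ℝ ∞ (tmap α β) := by
  unfold tmap
  exact ((contDiff_const.mul contDiff_fst).add contDiff_const).prodMk contDiff_snd

lemma contDiff_tscale {U : Field} (hU : ContDiff ℝ ∞ U) (κ α β : ℚ) :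
    ContDiff ℝ ∞ (tscale κ α β U) := by
  have : tscale κ α β U = fun p => (κ : ℝ) • (U ∘ tmap α β) p := rfl
  rw [this]
  exact (hU.comp (contDiff_tmap α β)).const_smul (κ : ℝ)

/-- linear part of `tmap` -/
def tlin (α : ℚ) : (ℝ × (Fin 3 → ℝ)) →L[ℝ] (ℝ × (Fin 3 → ℝ)) :=
  ((α : ℝ) • ContinuousLinearMap.fst ℝ ℝ (Fin 3 → ℝ)).prod (ContinuousLinearMap.snd ℝ ℝ (Fin 3 → ℝ))

lemma hasFDerivAt_tmap (α β : ℚ) (p : ℝ × (Fin 3 → ℝ)) : HasFDerivAt (tmap α β) (tlin α) p := by
  have h : tmap α β = fun p => tlin α p + ((β : ℝ), (0 : Fin 3 → ℝ)) := by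
    funext q
    simp [tmap, tlin]
  rw [h]
  exact (tlin α).hasFDerivAt.add_const _

lemma tlin_direction (α : ℚ) (d : Fin 4) : tlin α (direction d) = (α : ℝ) ^ δt d • direction d := by
  refine Fin.cases ?_ (fun k => ?_) d
  · simp [tlin, direction_zero, δt]
  · have h : k.succ ≠ 0 := Fin.succ_ne_zero k
    simp [tlin, direction_succ, δt, h]

lemma fderiv_tscale_apply {W : Field} (hW : Differentiable ℝ W) (s : ℝ) (α β : ℚ)
    (p : ℝ × (Fin 3 → ℝ)) (d : Fin 4) :
    fderiv ℝ (fun p => s • W (tmap α β p)) p (direction d) =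
      (s * (α : ℝ) ^ δt d) • fderiv ℝ W (tmap α β p) (direction d) := by
  have h1 : HasFDerivAt (fun p => W (tmap α β p)) ((fderiv ℝ W (tmap α β p)).comp (tlin α)) p :=
    (hW _).hasFDerivAt.comp p (hasFDerivAt_tmap α β p)
  have h2 : HasFDerivAt (fun p => s • W (tmap α β p))
      (s • (fderiv ℝ W (tmap α β p)).comp (tlin α)) p := h1.const_smul s
  rw [h2.fderiv]
  simp only [ContinuousLinearMap.smul_apply, ContinuousLinearMap.comp_apply, tlin_direction,
    map_smul, smul_smul]

lemma mixedDeriv_tscale {U : Field} (hU : ContDiff ℝ ∞ U) (κ α β : ℚ) (ds : List (Fin 4)) :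
    mixedDeriv ds (tscale κ α β U) =
      fun p => ((κ : ℝ) * (α : ℝ) ^ cnt δt ds) • mixedDeriv ds U (tmap α β p) := by
  induction ds with
  | nil =>
    funext p
    simp [mixedDeriv, tscale, tmap]
  | cons d ds ih =>
    funext p
    simp only [mixedDeriv]
    rw [ih, fderiv_tscale_apply (differentiable_of_smooth (contDiff_mixedDeriv hU ds))]
    simp only [cnt_cons, pow_add, mul_assoc]

lemma Eff'.tscale {U : Field} (hU : ContDiff ℝ ∞ U) (h : Eff' U) (κ α β : ℚ) :
    Eff' (tscale κ α β U) where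
  approx j := by
    have hds : Computable fun z : EvIdx => z.1 := Computable.fst
    have ht : Computable fun z : EvIdx => z.2.1 := Computable.fst.comp Computable.snd
    have hq : Computable fun z : EvIdx => z.2.2 := Computable.snd.comp Computable.snd
    have h1 : Computable fun z : EvIdx => κ * α ^ cnt δt z.1 :=
      cq_mul (cq_const κ) (cq_pow (cq_const α) ((computable_cnt δt).comp hds))
    have h2 : Computable fun z : EvIdx => ((z.1, α * z.2.1 + β, z.2.2) : EvIdx) :=
      hds.pair ((cq_add (cq_mul (cq_const α) ht) (cq_const β)).pair hq)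
    have h3 := (CompReal.of_rat h1).mul ((h.approx j).comp h2)
    convert h3 using 2 with z
    rw [mixedDeriv_tscale hU]
    simp [tmap]
  bound := by
    obtain ⟨b, hb, hb'⟩ := h.bound
    refine ⟨fun ds => natB κ * natB α ^ cnt δt ds * b ds,
      cn_mul (cn_mul (cn_const _) (cn_pow (cn_const _) (computable_cnt δt))) hb, fun ds p j => ?_⟩
    rw [mixedDeriv_tscale hU]
    simp only [Pi.smul_apply, smul_eq_mul, abs_mul, abs_pow]
    push_cast
    refine mul_le_mul (mul_le_mul (abs_le_natB κ) (pow_le_pow_left₀ (abs_nonneg _) (abs_le_natB α) _)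
      (by positivity) (by positivity)) (hb' _ _ _) (abs_nonneg _) (by positivity)

end Crest.Agent.Lib.BoxFlow
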