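import Crest.Agent.Lib.BoxFlow.Carry

set_option autoImplicit false
set_option maxHeartbeats 400000

open scoped ContDiff NNReal
open Set Crest.AnalysisR.BoxFlow Topology Metric

noncomputable section

namespace Crest.Agent.Lib.BoxFlow

abbrev E3 := Fin 3 → ℝ

lemma clamp_glue (α : ℝ → E3) (v : ℝ → E3 → E3)
    (h : ∀ t ∈ Icc (0 : ℝ) 1, HasDerivWithinAt α (v t (α t)) (Icc 0 1) t)
    (h0 : ∀ t x, t ∉ Icc (1 / 4 : ℝ) (3 / 4) → v t x = 0) (t : ℝ) :
    HasDerivAt (fun t => α (max 0 (min 1 t))) (v t (α (max 0 (min 1 t)))) t := by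
  set γ : ℝ → E3 := fun t => α (max 0 (min 1 t)) with hγ
  have hle : ∀ s, s ≤ 0 → γ s = α 0 := by
    intro s hs
    simp only [hγ]
    rw [max_eq_left (by rw [min_eq_right (by linarith)]; exact hs)]
  have hge : ∀ s, 1 ≤ s → γ s = α 1 := by
    intro s hs
    simp only [hγ]
    rw [min_eq_left hs, max_eq_right (by norm_num)]
  have hmid : ∀ s ∈ Icc (0 : ℝ) 1, γ s = α s := by
    intro s hs
    simp only [hγ]
    rw [min_eq_right hs.2, max_eq_right hs.1]
  rcases lt_trichotomy t 0 with ht | ht | ht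
  · have e : γ =ᶠ[𝓝 t] fun _ => α 0 := by
      filter_upwards [Iio_mem_nhds ht] with s hs using hle s (le_of_lt hs)
    rw [h0 t _ (by intro hm; linarith [hm.1])]
    exact (hasDerivAt_const t (α 0)).congr_of_eventuallyEq e
  · subst ht
    have e0 : v 0 (γ 0) = 0 := h0 0 _ (by intro hm; norm_num at hm)
    have h1 : HasDerivWithinAt γ 0 (Iic 0) 0 := by
      refine (hasDerivWithinAt_const (0 : ℝ) (Iic 0) (α 0)).congr (fun s hs => hle s hs) (hle 0 le_rfl)
    have h2 : HasDerivWithinAt γ 0 (Ici 0) 0 := by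
      have h3 : HasDerivWithinAt α 0 (Icc 0 1) 0 := by
        have := h 0 ⟨le_rfl, zero_le_one⟩
        have e1 : γ 0 = α 0 := hle 0 le_rfl
        rw [← e1, e0] at this
        exact this
      have h4 : HasDerivWithinAt γ 0 (Icc 0 1) 0 :=
        h3.congr (fun s hs => hmid s hs) (hle 0 le_rfl)
      exact h4.mono_of_mem_nhdsWithin (Icc_mem_nhdsGE zero_lt_one)
    have h3 := h1.union h2
    rw [Iic_union_Ici, hasDerivWithinAt_univ] at h3
    show HasDerivAt γ (v 0 (γ 0)) 0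
    rw [e0]
    exact h3
  rcases lt_trichotomy t 1 with ht' | ht' | ht'
  · have hm : t ∈ Icc (0 : ℝ) 1 := ⟨ht.le, ht'.le⟩
    have e1 : γ t = α t := hmid t hm
    have h3 : HasDerivAt α (v t (α t)) t :=
      (h t hm).hasDerivAt (Icc_mem_nhds ht ht')
    have e : γ =ᶠ[𝓝 t] α := by
      filter_upwards [Icc_mem_nhds ht ht'] with s hs using hmid s hs
    show HasDerivAt γ (v t (γ t)) t
    rw [e1]
    exact h3.congr_of_eventuallyEq e
  · subst ht'
    have e0 : v 1 (γ 1) = 0 := h0 1 _ (by intro hm; norm_num at hm)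
    have h1 : HasDerivWithinAt γ 0 (Ici 1) 1 := by
      refine (hasDerivWithinAt_const (1 : ℝ) (Ici 1) (α 1)).congr (fun s hs => hge s hs) (hge 1 le_rfl)
    have h2 : HasDerivWithinAt γ 0 (Iic 1) 1 := by
      have h3 : HasDerivWithinAt α 0 (Icc 0 1) 1 := by
        have := h 1 ⟨zero_le_one, le_rfl⟩
        have e1 : γ 1 = α 1 := hge 1 le_rfl
        rw [← e1, e0] at this
        exact this
      have h4 : HasDerivWithinAt γ 0 (Icc 0 1) 1 :=
        h3.congr (fun s hs => hmid s hs) (hge 1 le_rfl)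
      exact h4.mono_of_mem_nhdsWithin (Icc_mem_nhdsLE zero_lt_one)
    have h3 := h2.union h1
    rw [Iic_union_Ici, hasDerivWithinAt_univ] at h3
    show HasDerivAt γ (v 1 (γ 1)) 1
    rw [e0]
    exact h3
  · have e : γ =ᶠ[𝓝 t] fun _ => α 1 := by
      filter_upwards [Ioi_mem_nhds ht'] with s hs using hge s (le_of_lt hs)
    rw [h0 t _ (by intro hm; linarith [hm.2])]
    exact (hasDerivAt_const t (α 1)).congr_of_eventuallyEq e

theorem exists_flow {U : Field} (hU : ContDiff ℝ ∞ U) (hc : HasCompactSupport U)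
    (ht : ∀ p : ℝ × (Fin 3 → ℝ), p.1 ∉ Icc (1 / 4 : ℝ) (3 / 4) → U p = 0) :
    ∃ Φ : ℝ → E3 → E3, IsFlow U Φ := by
  obtain ⟨K, hK⟩ := hU.lipschitzWith_of_hasCompactSupport hc (by simp)
  obtain ⟨L, hL⟩ := hc.exists_bound_of_continuous hU.continuous
  have hL0 : 0 ≤ L := (norm_nonneg _).trans (hL (0, 0))
  let v : ℝ → E3 → E3 := fun t x => U (t, x)
  have hKv : ∀ t, LipschitzWith K (v t) := by
    intro t
    refine LipschitzWith.of_dist_le_mul fun x y => ?_
    have := hK.dist_le_mul (t, x) (t, y)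
    simpa [Prod.dist_eq, v] using this
  have key : ∀ x : E3, ∃ α : ℝ → E3, α 0 = x ∧
      ∀ s ∈ Icc (0 : ℝ) 1, HasDerivWithinAt α (v s (α s)) (Icc 0 1) s := by
    intro x
    let L' : ℝ≥0 := ⟨L, hL0⟩
    have hPL : IsPicardLindelof v (tmin := 0) (tmax := 1) ⟨0, by simp⟩ x L' 0 L' K := by
      refine ⟨fun t _ => (hKv t).lipschitzOnWith, fun y _ => ?_, fun t _ y _ => hL _, ?_⟩
      · have : Continuous fun s : ℝ => U (s, y) := hU.continuous.comp (by fun_prop)
        exact this.continuousOn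
      · simp
    exact hPL.exists_eq_forall_mem_Icc_hasDerivWithinAt₀
  choose α hα0 hα using key
  refine ⟨fun t x => α x (max 0 (min 1 t)), fun x => ?_, fun t x => ?_⟩
  · simp [hα0]
  · exact clamp_glue (α x) v (hα x) (fun t y hty => ht (t, y) hty) t

theorem flow_unique {U : Field} (hU : ContDiff ℝ ∞ U) (hc : HasCompactSupport U)
    {Φ : ℝ → E3 → E3} (hΦ : IsFlow U Φ) (x : E3) (γ : ℝ → E3) (h0 : γ 0 = x)
    (hγ : ∀ t, HasDerivAt γ (U (t, γ t)) t) (t : ℝ) : Φ t x = γ t := by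
  obtain ⟨K, hK⟩ := hU.lipschitzWith_of_hasCompactSupport hc (by simp)
  let v : ℝ → E3 → E3 := fun t x => U (t, x)
  have hKv : ∀ t, LipschitzWith K (v t) := by
    intro t
    refine LipschitzWith.of_dist_le_mul fun x y => ?_
    have := hK.dist_le_mul (t, x) (t, y)
    simpa [Prod.dist_eq, v] using this
  have := ODE_solution_unique_univ (v := v) (s := fun _ => univ) (K := K)
    (f := fun s => Φ s x) (g := γ) (t₀ := 0) (fun t => (hKv t).lipschitzOnWith)
    (fun t => ⟨hΦ.2 t x, trivial⟩) (fun t => ⟨hγ t, trivial⟩) (by simp [hΦ.1, h0])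
  exact congrFun this t

end Crest.Agent.Lib.BoxFlow
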