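import Crest.Agent.Lib.BoxFlow.Stack

set_option autoImplicit false
set_option maxHeartbeats 400000

open Set Crest.AnalysisR.BoxFlow

noncomputable section

namespace Crest.Agent.Lib.BoxFlow

set_option linter.unusedSectionVars false
set_option linter.unusedVariables false
set_option linter.unusedSimpArgs false

variable {n : ℕ}

/-- Sequential diagonal moves. -/
lemma reach_diag_all (a h h' : Fin n → Fin 3 → ℚ) (hh : ∀ i j, 0 < h i j) (hh' : ∀ i j, 0 < h' i j)
    (l m o : Fin 3) (hlm : l ≠ m) (hlo : l ≠ o) (hmo : m ≠ o) (r : Fin n → ℚ) (hr : ∀ i, 0 < r i)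
    (h2l : ∀ i, h' i l = h i l * r i) (h2m : ∀ i, h' i m = h i m / r i) (h2o : ∀ i, h' i o = h i o)
    (guard : ∀ i i', i ≠ i' → W0 (h i l) (h i m) (r i) + h i' l < |a i l - a i' l| ∧
      W0 (h i l) (h i m) (r i) + h' i' l < |a i l - a i' l|) :
    Reach a h a h' := by
  refine reach_seq (fun i => (i : ℕ)) (fun i => i.2) hh hh' fun k hk => ?_
  rw [mix_self, mix_self]
  set i₀ : Fin n := ⟨k, hk⟩ with hi₀
  have e0 : mix (fun i : Fin n => (i : ℕ)) h h' k i₀ = h i₀ := by simp [mix, hi₀]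
  have e1 : mix (fun i : Fin n => (i : ℕ)) h h' (k + 1) i₀ = h' i₀ := by simp [mix, hi₀]
  refine reach_diag a _ _ (mix_pos hh hh' k) (mix_pos hh hh' (k + 1)) i₀ l m o hlm hlo hmo (r i₀) (hr i₀)
    ?_ ?_ ?_ ?_ ?_
  · intro i hi
    have hi' : (i : ℕ) ≠ k := fun h => hi (Fin.ext h)
    simp only [mix]
    by_cases hlt : (i : ℕ) < k
    · simp [hlt, Nat.lt_succ_of_lt hlt]
    · have : ¬ (i : ℕ) < k + 1 := by omega
      simp [hlt, this]
  · rw [e0, e1, h2l]
  · rw [e0, e1, h2m]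
  · rw [e0, e1, h2o]
  · intro i hi
    rw [e0]
    refine ⟨l, ?_⟩
    simp only [hlo, if_false]
    obtain ⟨g1, g2⟩ := guard i₀ i (Ne.symm hi)
    simp only [mix]
    split_ifs
    · exact g2
    · exact g1

/-- Normal-form centers. -/
def NFa (X : Fin n → ℚ) : Fin n → Fin 3 → ℚ := fun i j => if j = 0 then X i else 0
/-- Normal-form half-widths. -/
def NFh (v : Fin n → ℚ) : Fin n → Fin 3 → ℚ := fun i j => if j = 0 then v i else 1

lemma fin3_ne : (0 : Fin 3) ≠ 1 ∧ (0 : Fin 3) ≠ 2 ∧ (1 : Fin 3) ≠ 2 := by decide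

/-- Reach the normal form. -/
lemma reach_nf (a h : Fin n → Fin 3 → ℚ) (hh : ∀ i j, 0 < h i j)
    (hsep : ∀ i i', i ≠ i' → ∃ j, h i j + h i' j < |a i j - a i' j|)
    (X : Fin n → ℚ) (B : ℚ)
    (hB : ∀ i, W0 (h i 0) (h i 1) (h i 1) ≤ B ∧ W0 (h i 0 * h i 1) (h i 2) (h i 2) ≤ B)
    (hX : ∀ i i', i ≠ i' → 2 * B < |X i - X i'|) :
    Reach a h (NFa X) (NFh fun i => h i 0 * h i 1 * h i 2) := by
  obtain ⟨h01, h02, h12⟩ := fin3_ne
  obtain ⟨a1, R1, ha1, ha1'⟩ := reach_stack a h hh hsep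
  -- x-coordinate
  let a2 : Fin n → Fin 3 → ℚ := fun i j => if j = 0 then X i else a1 i j
  have R2 : Reach a1 h a2 h := by
    refine reach_translate_all a1 a2 h hh 0 2 h02.symm ?_ ha1'
    intro i j hj
    simp [a2, hj]
  let a3 : Fin n → Fin 3 → ℚ := fun i j => if j = 1 then 0 else a2 i j
  have R3 : Reach a2 h a3 h := by
    refine reach_translate_all a2 a3 h hh 1 2 h12.symm ?_ ?_
    · intro i j hj
      simp [a3, hj]
    · intro i i' hii
      have e : ∀ i, a2 i 2 = a1 i 2 := fun i => by simp [a2, h02.symm]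
      rw [e, e]
      exact ha1' i i' hii
  let a4 : Fin n → Fin 3 → ℚ := fun i j => if j = 2 then 0 else a3 i j
  have R4 : Reach a3 h a4 h := by
    refine reach_translate_all a3 a4 h hh 2 0 h02 ?_ ?_
    · intro i j hj
      simp [a4, hj]
    · intro i i' hii
      have e : ∀ i, a3 i 0 = X i := fun i => by simp [a3, a2, h01]
      rw [e, e]
      have b1 := (W0_ge _ _ _ (hh i 0) (hh i 1) (hh i 1)).1.trans (hB i).1
      have b2 := (W0_ge _ _ _ (hh i' 0) (hh i' 1) (hh i' 1)).1.trans (hB i').1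
      have := hX i i' hii
      linarith
  have e4 : a4 = NFa X := by
    funext i j
    fin_cases j
    · simp [a4, a3, a2, NFa, h01, h02]
    · simp [a4, a3, NFa, h12, h01.symm]
    · simp [a4, NFa, h02.symm]
  rw [e4] at R4
  let h1 : Fin n → Fin 3 → ℚ := fun i j => if j = 0 then h i 0 * h i 1 else if j = 1 then 1 else h i 2
  have hh1 : ∀ i j, 0 < h1 i j := by
    intro i j
    simp only [h1]
    split_ifs
    · exact mul_pos (hh _ _) (hh _ _)
    · exact one_pos
    · exact hh _ _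
  have hXa : ∀ i, NFa X i 0 = X i := fun i => by simp [NFa]
  have R5 : Reach (NFa X) h (NFa X) h1 := by
    refine reach_diag_all (NFa X) h h1 hh hh1 0 1 2 h01 h02 h12 (fun i => h i 1) (fun i => hh i 1)
      ?_ ?_ ?_ ?_
    · intro i
      simp [h1]
    · intro i
      have : h i 1 / h i 1 = 1 := div_self (hh i 1).ne'
      simp [h1, h01.symm, this]
    · intro i
      simp [h1, h02.symm, h12.symm]
    · intro i i' hii
      rw [hXa, hXa]
      have b0 := (hB i).1
      obtain ⟨g1, _, g3, _⟩ := W0_ge _ _ _ (hh i' 0) (hh i' 1) (hh i' 1)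
      have b1 := g1.trans (hB i').1
      have b3 := g3.trans (hB i').1
      have := hX i i' hii
      have e : h1 i' 0 = h i' 1 * h i' 0 := by simp [h1, mul_comm]
      rw [e]
      constructor <;> linarith
  let v : Fin n → ℚ := fun i => h i 0 * h i 1 * h i 2
  have hv : ∀ i, 0 < v i := fun i => mul_pos (mul_pos (hh _ _) (hh _ _)) (hh _ _)
  have hh2 : ∀ i j, 0 < NFh v i j := by
    intro i j
    simp only [NFh]
    split_ifs
    · exact hv i
    · exact one_pos
  have R6 : Reach (NFa X) h1 (NFa X) (NFh v) := by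
    refine reach_diag_all (NFa X) h1 (NFh v) hh1 hh2 0 2 1 h02 h01 h12.symm (fun i => h i 2)
      (fun i => hh i 2) ?_ ?_ ?_ ?_
    · intro i
      simp [h1, NFh, v]
    · intro i
      have : h i 2 / h i 2 = 1 := div_self (hh i 2).ne'
      simp [h1, NFh, h02.symm, h12.symm, this]
    · intro i
      simp [h1, NFh, h01.symm]
    · intro i i' hii
      rw [hXa, hXa]
      have e0 : ∀ i, h1 i 0 = h i 0 * h i 1 := fun i => by simp [h1]
      have e2 : ∀ i, h1 i 2 = h i 2 := fun i => by simp [h1, h02.symm, h12.symm]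
      have e3 : NFh v i' 0 = h i' 2 * (h i' 0 * h i' 1) := by simp [NFh, v, mul_comm]
      simp only [e0, e2, e3]
      have b0 := (hB i).2
      obtain ⟨g1, _, g3, _⟩ := W0_ge _ _ _ (mul_pos (hh i' 0) (hh i' 1)) (hh i' 2) (hh i' 2)
      have b1 := g1.trans (hB i').2
      have b3 := g3.trans (hB i').2
      have := hX i i' hii
      constructor <;> linarith
  exact (((((R1.trans hh hh R2).trans hh hh R3).trans hh hh R4).trans hh hh R5).trans hh hh1 R6)

/-- Any two separated configurations with the same volumes are connected. -/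
theorem reach_main (a h b k : Fin n → Fin 3 → ℚ) (hh : ∀ i j, 0 < h i j) (hk : ∀ i j, 0 < k i j)
    (hsepa : ∀ i i', i ≠ i' → ∃ j, h i j + h i' j < |a i j - a i' j|)
    (hsepb : ∀ i i', i ≠ i' → ∃ j, k i j + k i' j < |b i j - b i' j|)
    (hvol : ∀ i, h i 0 * h i 1 * h i 2 = k i 0 * k i 1 * k i 2) : Reach a h b k := by
  obtain ⟨B1, hB1⟩ := exists_ub fun i => W0 (h i 0) (h i 1) (h i 1)
  obtain ⟨B2, hB2⟩ := exists_ub fun i => W0 (h i 0 * h i 1) (h i 2) (h i 2)
  obtain ⟨B3, hB3⟩ := exists_ub fun i => W0 (k i 0) (k i 1) (k i 1)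
  obtain ⟨B4, hB4⟩ := exists_ub fun i => W0 (k i 0 * k i 1) (k i 2) (k i 2)
  set B : ℚ := |B1| + |B2| + |B3| + |B4| with hB
  have hB0 : 0 ≤ B := by positivity
  have l1 := le_abs_self B1
  have l2 := le_abs_self B2
  have l3 := le_abs_self B3
  have l4 := le_abs_self B4
  have a1 := abs_nonneg B1
  have a2 := abs_nonneg B2
  have a3 := abs_nonneg B3
  have a4 := abs_nonneg B4
  let X : Fin n → ℚ := fun i => (i : ℕ) * (2 * B + 1)
  have hX : ∀ i i', i ≠ i' → 2 * B < |X i - X i'| := by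
    intro i i' hii
    have h1 : X i - X i' = (((i : ℕ) : ℚ) - (i' : ℕ)) * (2 * B + 1) := by
      simp only [X]; ring
    have hne : (i : ℕ) ≠ (i' : ℕ) := fun h => hii (Fin.ext h)
    have h2 : (1 : ℚ) ≤ |((i : ℕ) : ℚ) - (i' : ℕ)| := by
      have h3 : ((i : ℕ) : ℤ) - (i' : ℕ) ≠ 0 := by
        intro h4
        apply hne
        omega
      have h4 : (1 : ℤ) ≤ |((i : ℕ) : ℤ) - (i' : ℕ)| := Int.one_le_abs h3
      have h5 : ((1 : ℤ) : ℚ) ≤ ((|((i : ℕ) : ℤ) - (i' : ℕ)| : ℤ) : ℚ) := by exact_mod_cast h4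
      simpa using h5
    rw [h1, abs_mul, abs_of_pos (by linarith : (0 : ℚ) < 2 * B + 1)]
    nlinarith
  have R1 := reach_nf a h hh hsepa X B
    (fun i => ⟨(hB1 i).trans (by linarith), (hB2 i).trans (by linarith)⟩) hX
  have R2 := reach_nf b k hk hsepb X B
    (fun i => ⟨(hB3 i).trans (by linarith), (hB4 i).trans (by linarith)⟩) hX
  have e : (fun i => k i 0 * k i 1 * k i 2) = fun i => h i 0 * h i 1 * h i 2 := by
    funext i
    exact (hvol i).symm
  rw [e] at R2
  have hv : ∀ i, 0 < h i 0 * h i 1 * h i 2 := fun i =>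
    mul_pos (mul_pos (hh _ _) (hh _ _)) (hh _ _)
  have hh2 : ∀ i j, 0 < NFh (fun i => h i 0 * h i 1 * h i 2) i j := by
    intro i j
    simp only [NFh]
    split_ifs
    · exact hv i
    · exact one_pos
  exact R1.trans hh hh2 (R2.symm hk hh2)

end Crest.Agent.Lib.BoxFlow
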