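import Crest.Agent.Lib.BoxFlow.FieldEff

set_option autoImplicit false
set_option maxHeartbeats 300000

open scoped ContDiff
open Set Crest.AnalysisR.BoxFlow

noncomputable section

namespace Crest.Agent.Lib.BoxFlow

lemma fin3_cases : ∀ l m o k : Fin 3, l ≠ m → l ≠ o → m ≠ o → k = l ∨ k = m ∨ k = o := by decide

section PT
variable (ψ a b r : ℕ → ℝ → ℝ) (l m o e : Fin 3)

/-- scalar product term -/
def PTv (c₀ c₁ c₂ c₃ : ℕ) (p : ℝ × (Fin 3 → ℝ)) : ℝ :=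
  ψ c₀ p.1 * a c₁ (p.2 l) * b c₂ (p.2 m) * r c₃ (p.2 o)

/-- vector product term -/
def PTf (c₀ c₁ c₂ c₃ : ℕ) : Field := fun p => Pi.single e (PTv ψ a b r l m o c₀ c₁ c₂ c₃ p)

variable {ψ a b r l m o e}

lemma hasFDerivAt_PTv (hψ : ∀ n x, HasDerivAt (ψ n) (ψ (n + 1) x) x)
    (ha : ∀ n x, HasDerivAt (a n) (a (n + 1) x) x)
    (hb : ∀ n x, HasDerivAt (b n) (b (n + 1) x) x)
    (hr : ∀ n x, HasDerivAt (r n) (r (n + 1) x) x)
    (hlm : l ≠ m) (hlo : l ≠ o) (hmo : m ≠ o) (c₀ c₁ c₂ c₃ : ℕ) (p : ℝ × (Fin 3 → ℝ)) :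
    ∃ L : (ℝ × (Fin 3 → ℝ)) →L[ℝ] ℝ, HasFDerivAt (PTv ψ a b r l m o c₀ c₁ c₂ c₃) L p ∧
      ∀ d, L (direction d) = PTv ψ a b r l m o (c₀ + δt d) (c₁ + δs l d) (c₂ + δs m d) (c₃ + δs o d) p := by
  let T := ContinuousLinearMap.fst ℝ ℝ (Fin 3 → ℝ)
  let C : Fin 3 → (ℝ × (Fin 3 → ℝ)) →L[ℝ] ℝ := fun j =>
    (ContinuousLinearMap.proj j).comp (ContinuousLinearMap.snd ℝ ℝ (Fin 3 → ℝ))
  have h0 : HasFDerivAt (fun p : ℝ × (Fin 3 → ℝ) => ψ c₀ p.1) (ψ (c₀ + 1) p.1 • T) p :=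
    (hψ c₀ p.1).comp_hasFDerivAt p T.hasFDerivAt
  have h1 : HasFDerivAt (fun p : ℝ × (Fin 3 → ℝ) => a c₁ (p.2 l)) (a (c₁ + 1) (p.2 l) • C l) p :=
    (ha c₁ (p.2 l)).comp_hasFDerivAt p (C l).hasFDerivAt
  have h2 : HasFDerivAt (fun p : ℝ × (Fin 3 → ℝ) => b c₂ (p.2 m)) (b (c₂ + 1) (p.2 m) • C m) p :=
    (hb c₂ (p.2 m)).comp_hasFDerivAt p (C m).hasFDerivAt
  have h3 : HasFDerivAt (fun p : ℝ × (Fin 3 → ℝ) => r c₃ (p.2 o)) (r (c₃ + 1) (p.2 o) • C o) p :=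
    (hr c₃ (p.2 o)).comp_hasFDerivAt p (C o).hasFDerivAt
  have h := ((h0.mul h1).mul h2).mul h3
  refine ⟨_, h, fun d => ?_⟩
  have hml : m ≠ l := hlm.symm
  have hol : o ≠ l := hlo.symm
  have hom : o ≠ m := hmo.symm
  refine Fin.cases ?_ (fun k => ?_) d
  · have z1 : ∀ j : Fin 3, (0 : Fin 4) ≠ j.succ := fun j => (Fin.succ_ne_zero j).symm
    simp [direction_zero, δt, δs, T, C, PTv, z1]
    try ring
  · have hk : k.succ ≠ 0 := Fin.succ_ne_zero k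
    rcases fin3_cases l m o k hlm hlo hmo with rfl | rfl | rfl
    · simp [direction_succ, δt, δs, T, C, PTv, hk, hlm, hlo, hml, hol, hmo, hom]
      try ring
    · simp [direction_succ, δt, δs, T, C, PTv, hk, hlm, hlo, hml, hol, hmo, hom]
      try ring
    · simp [direction_succ, δt, δs, T, C, PTv, hk, hlm, hlo, hml, hol, hmo, hom]
      try ring

lemma fderiv_PTf (hψ : ∀ n x, HasDerivAt (ψ n) (ψ (n + 1) x) x)
    (ha : ∀ n x, HasDerivAt (a n) (a (n + 1) x) x)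
    (hb : ∀ n x, HasDerivAt (b n) (b (n + 1) x) x)
    (hr : ∀ n x, HasDerivAt (r n) (r (n + 1) x) x)
    (hlm : l ≠ m) (hlo : l ≠ o) (hmo : m ≠ o) (c₀ c₁ c₂ c₃ : ℕ) (p : ℝ × (Fin 3 → ℝ)) (d : Fin 4) :
    fderiv ℝ (PTf ψ a b r l m o e c₀ c₁ c₂ c₃) p (direction d) =
      PTf ψ a b r l m o e (c₀ + δt d) (c₁ + δs l d) (c₂ + δs m d) (c₃ + δs o d) p := by
  obtain ⟨L, hL, hL'⟩ := hasFDerivAt_PTv hψ ha hb hr hlm hlo hmo c₀ c₁ c₂ c₃ p
  have h1 : HasFDerivAt (PTf ψ a b r l m o e c₀ c₁ c₂ c₃)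
      ((ContinuousLinearMap.single ℝ (fun _ : Fin 3 => ℝ) e).comp L) p :=
    (ContinuousLinearMap.single ℝ (fun _ : Fin 3 => ℝ) e).hasFDerivAt.comp p hL
  rw [h1.fderiv]
  simp only [ContinuousLinearMap.comp_apply, hL', ContinuousLinearMap.single_apply]
  rfl

lemma mixedDeriv_PTf (hψ : ∀ n x, HasDerivAt (ψ n) (ψ (n + 1) x) x)
    (ha : ∀ n x, HasDerivAt (a n) (a (n + 1) x) x)
    (hb : ∀ n x, HasDerivAt (b n) (b (n + 1) x) x)
    (hr : ∀ n x, HasDerivAt (r n) (r (n + 1) x) x)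
    (hlm : l ≠ m) (hlo : l ≠ o) (hmo : m ≠ o) (ds : List (Fin 4)) :
    mixedDeriv ds (PTf ψ a b r l m o e 0 0 0 0) =
      PTf ψ a b r l m o e (cnt δt ds) (cnt (δs l) ds) (cnt (δs m) ds) (cnt (δs o) ds) := by
  induction ds with
  | nil => rfl
  | cons d ds ih =>
    funext p
    simp only [mixedDeriv]
    rw [ih, fderiv_PTf hψ ha hb hr hlm hlo hmo]
    simp only [cnt_cons]

lemma contDiff_PTf (hψ : Eff1 ψ) (ha : Eff1 a) (hb : Eff1 b) (hr : Eff1 r)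
    (c₀ c₁ c₂ c₃ : ℕ) : ContDiff ℝ ∞ (PTf ψ a b r l m o e c₀ c₁ c₂ c₃) := by
  have h0 : ContDiff ℝ ∞ (fun p : ℝ × (Fin 3 → ℝ) => ψ c₀ p.1) := (hψ.contDiff c₀).comp contDiff_fst
  have hc : ∀ j : Fin 3, ContDiff ℝ ∞ (fun p : ℝ × (Fin 3 → ℝ) => p.2 j) := fun j =>
    (contDiff_apply ℝ ℝ j).comp contDiff_snd
  have h1 : ContDiff ℝ ∞ (fun p : ℝ × (Fin 3 → ℝ) => a c₁ (p.2 l)) := (ha.contDiff c₁).comp (hc l)
  have h2 : ContDiff ℝ ∞ (fun p : ℝ × (Fin 3 → ℝ) => b c₂ (p.2 m)) := (hb.contDiff c₂).comp (hc m)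
  have h3 : ContDiff ℝ ∞ (fun p : ℝ × (Fin 3 → ℝ) => r c₃ (p.2 o)) := (hr.contDiff c₃).comp (hc o)
  have h : ContDiff ℝ ∞ (PTv ψ a b r l m o c₀ c₁ c₂ c₃) := ((h0.mul h1).mul h2).mul h3
  exact (ContinuousLinearMap.single ℝ (fun _ : Fin 3 => ℝ) e).contDiff.comp h

lemma eff_PTf (hψ : Eff1 ψ) (ha : Eff1 a) (hb : Eff1 b) (hr : Eff1 r)
    (hlm : l ≠ m) (hlo : l ≠ o) (hmo : m ≠ o) : Eff' (PTf ψ a b r l m o e 0 0 0 0) where
  approx j := by
    have hds : Computable fun z : EvIdx => z.1 := Computable.fst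
    have ht : Computable fun z : EvIdx => z.2.1 := Computable.fst.comp Computable.snd
    have hq : Computable fun z : EvIdx => z.2.2 := Computable.snd.comp Computable.snd
    have hc : ∀ (δ : Fin 4 → ℕ), Computable fun z : EvIdx => cnt δ z.1 := fun δ =>
      (computable_cnt δ).comp hds
    have hqj : ∀ k : Fin 3, Computable fun z : EvIdx => z.2.2 k := fun k => by
      have := (Computable.fin_app (σ := ℚ) (n := 3)).comp hq (Computable.const k)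
      exact this
    have h0 := hψ.approx.comp ((hc δt).pair ht)
    have h1 := ha.approx.comp ((hc (δs l)).pair (hqj l))
    have h2 := hb.approx.comp ((hc (δs m)).pair (hqj m))
    have h3 := hr.approx.comp ((hc (δs o)).pair (hqj o))
    have h4 := ((h0.mul h1).mul h2).mul h3
    by_cases hj : j = e
    · subst hj
      convert h4 using 2 with z
      rw [mixedDeriv_PTf hψ.deriv ha.deriv hb.deriv hr.deriv hlm hlo hmo]
      simp [PTf, PTv, ratPoint]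
    · have h5 : CompReal (fun _ : EvIdx => ((0 : ℚ) : ℝ)) := CompReal.of_rat (cq_const 0)
      convert h5 using 2 with z
      rw [mixedDeriv_PTf hψ.deriv ha.deriv hb.deriv hr.deriv hlm hlo hmo]
      simp [PTf, hj]
  bound := by
    obtain ⟨b0, hb0, hb0'⟩ := hψ.bound
    obtain ⟨b1, hb1, hb1'⟩ := ha.bound
    obtain ⟨b2, hb2, hb2'⟩ := hb.bound
    obtain ⟨b3, hb3, hb3'⟩ := hr.bound
    refine ⟨fun ds => b0 (cnt δt ds) * b1 (cnt (δs l) ds) * b2 (cnt (δs m) ds) * b3 (cnt (δs o) ds),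
      ?_, fun ds p j => ?_⟩
    · exact cn_mul (cn_mul (cn_mul (hb0.comp (computable_cnt _)) (hb1.comp (computable_cnt _)))
        (hb2.comp (computable_cnt _))) (hb3.comp (computable_cnt _))
    · rw [mixedDeriv_PTf hψ.deriv ha.deriv hb.deriv hr.deriv hlm hlo hmo]
      push_cast
      have key : |PTv ψ a b r l m o (cnt δt ds) (cnt (δs l) ds) (cnt (δs m) ds) (cnt (δs o) ds) p| ≤
          (b0 (cnt δt ds) : ℝ) * b1 (cnt (δs l) ds) * b2 (cnt (δs m) ds) * b3 (cnt (δs o) ds) := by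
        simp only [PTv, abs_mul]
        exact mul_le_mul (mul_le_mul (mul_le_mul (hb0' _ _) (hb1' _ _) (abs_nonneg _) (by positivity))
          (hb2' _ _) (abs_nonneg _) (by positivity)) (hb3' _ _) (abs_nonneg _) (by positivity)
      by_cases hj : j = e
      · subst hj
        simpa [PTf] using key
      · simp only [PTf, Pi.single_apply, hj, if_false, abs_zero]
        positivity

lemma spaceDiv_PTf (hψ : ∀ n x, HasDerivAt (ψ n) (ψ (n + 1) x) x)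
    (ha : ∀ n x, HasDerivAt (a n) (a (n + 1) x) x)
    (hb : ∀ n x, HasDerivAt (b n) (b (n + 1) x) x)
    (hr : ∀ n x, HasDerivAt (r n) (r (n + 1) x) x)
    (hlm : l ≠ m) (hlo : l ≠ o) (hmo : m ≠ o) (p : ℝ × (Fin 3 → ℝ)) :
    spaceDiv (PTf ψ a b r l m o e 0 0 0 0) p =
      PTv ψ a b r l m o (δt e.succ) (δs l e.succ) (δs m e.succ) (δs o e.succ) p := by
  unfold spaceDiv
  rw [Finset.sum_eq_single e]
  · rw [← direction_succ, fderiv_PTf hψ ha hb hr hlm hlo hmo]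
    simp [PTf]
  · intro j _ hj
    rw [← direction_succ, fderiv_PTf hψ ha hb hr hlm hlo hmo]
    simp [PTf, hj]
  · simp

end PT

lemma spaceDiv_add {U V : Field} (hU : Differentiable ℝ U) (hV : Differentiable ℝ V)
    (p : ℝ × (Fin 3 → ℝ)) : spaceDiv (fun p => U p + V p) p = spaceDiv U p + spaceDiv V p := by
  unfold spaceDiv
  rw [← Finset.sum_add_distrib]
  refine Finset.sum_congr rfl fun j _ => ?_
  rw [fderiv_fun_add (hU p) (hV p)]
  rfl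

lemma spaceDiv_tscale {U : Field} (hU : Differentiable ℝ U) (κ α β : ℚ) (p : ℝ × (Fin 3 → ℝ)) :
    spaceDiv (tscale κ α β U) p = (κ : ℝ) * spaceDiv U (tmap α β p) := by
  unfold spaceDiv
  rw [Finset.mul_sum]
  refine Finset.sum_congr rfl fun j _ => ?_
  have h := fderiv_tscale_apply hU (κ : ℝ) α β p j.succ
  rw [direction_succ] at h
  have hk : δt j.succ = 0 := by
    have := Fin.succ_ne_zero j
    simp [δt, this]
  rw [hk] at h
  simp only [pow_zero, mul_one] at h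
  have e : tscale κ α β U = fun p => (κ : ℝ) • U (tmap α β p) := rfl
  rw [e, h]
  rfl

end Crest.Agent.Lib.BoxFlow
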