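import Crest.Agent.Lib.BoxFlow.Shear

set_option autoImplicit false
set_option maxHeartbeats 400000

open Set Crest.AnalysisR.BoxFlow

noncomputable section

namespace Crest.Agent.Lib.BoxFlow

set_option linter.unusedSectionVars false
set_option linter.unusedVariables false
set_option linter.unusedSimpArgs false

/-- The affine map between boxes. -/
def aff (a h a' h' : Fin 3 → ℚ) (x : Fin 3 → ℝ) : Fin 3 → ℝ :=
  fun j => (a' j : ℝ) + ((h' j / h j : ℚ) : ℝ) * (x j - a j)

lemma aff_self (a h : Fin 3 → ℚ) (hh : ∀ j, 0 < h j) (x : Fin 3 → ℝ) : aff a h a h x = x := by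
  funext j
  have : h j / h j = 1 := div_self (hh j).ne'
  simp [aff, this]

lemma aff_mem (a h a' h' : Fin 3 → ℚ) (hh : ∀ j, 0 < h j) (hh' : ∀ j, 0 < h' j) (x : Fin 3 → ℝ)
    (hx : x ∈ box a h) : aff a h a' h' x ∈ box a' h' := by
  intro j
  have h1 : |x j - a j| ≤ h j := hx j
  have h2 : (0 : ℝ) < h j := by exact_mod_cast hh j
  have h3 : (0 : ℝ) < h' j := by exact_mod_cast hh' j
  simp only [aff, add_sub_cancel_left, abs_mul]
  push_cast
  rw [abs_of_pos (div_pos h3 h2), div_mul_eq_mul_div, div_le_iff₀ h2]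
  exact mul_le_mul_of_nonneg_left h1 h3.le

lemma aff_comp (a h a' h' a'' h'' : Fin 3 → ℚ) (hh : ∀ j, 0 < h j) (hh' : ∀ j, 0 < h' j)
    (x : Fin 3 → ℝ) : aff a' h' a'' h'' (aff a h a' h' x) = aff a h a'' h'' x := by
  funext j
  have h2 : (h j : ℝ) ≠ 0 := by exact_mod_cast (hh j).ne'
  have h3 : (h' j : ℝ) ≠ 0 := by exact_mod_cast (hh' j).ne'
  simp only [aff]
  push_cast
  field_simp
  ring

/-- Reachability between configurations. -/
def Reach {n : ℕ} (a h a' h' : Fin n → Fin 3 → ℚ) : Prop :=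
  ∃ U, Good U ∧ ∀ i, Carries U (box (a i) (h i)) (aff (a i) (h i) (a' i) (h' i))

variable {n : ℕ}

lemma Reach.refl (a h : Fin n → Fin 3 → ℚ) (hh : ∀ i j, 0 < h i j) : Reach a h a h := by
  refine ⟨fun _ => 0, good_zero, fun i x hx => ⟨fun _ => x, fun _ _ => rfl, fun t _ => ?_, fun t => ?_⟩⟩
  · rw [aff_self _ _ (hh i)]
  · exact hasDerivAt_const t x

lemma Reach.trans {a h a' h' a'' h'' : Fin n → Fin 3 → ℚ} (hh : ∀ i j, 0 < h i j)
    (hh' : ∀ i j, 0 < h' i j) (h1 : Reach a h a' h') (h2 : Reach a' h' a'' h'') :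
    Reach a h a'' h'' := by
  obtain ⟨U, hU, hU'⟩ := h1
  obtain ⟨V, hV, hV'⟩ := h2
  refine ⟨conc U V, hU.conc hV, fun i => ?_⟩
  refine (Carries.conc hU.time hV.time (hU' i) (hV' i)
    (fun x hx => aff_mem _ _ _ _ (hh i) (hh' i) x hx)).mono (Subset.refl _) (fun x _ => ?_)
  rw [aff_comp _ _ _ _ _ _ (hh i) (hh' i)]

lemma Reach.symm {a h a' h' : Fin n → Fin 3 → ℚ} (hh : ∀ i j, 0 < h i j)
    (hh' : ∀ i j, 0 < h' i j) (h1 : Reach a h a' h') : Reach a' h' a h := by
  obtain ⟨U, hU, hU'⟩ := h1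
  refine ⟨rev U, hU.rev, fun i => ?_⟩
  refine (hU' i).rev (fun y hy => aff_mem _ _ _ _ (hh' i) (hh i) y hy) (fun y _ => ?_)
  rw [aff_comp _ _ _ _ _ _ (hh' i) (hh i), aff_self _ _ (hh' i)]

/-- Mixed configuration according to a rank function. -/
def mix (ρ : Fin n → ℕ) (a a' : Fin n → Fin 3 → ℚ) (k : ℕ) : Fin n → Fin 3 → ℚ :=
  fun i => if ρ i < k then a' i else a i

lemma mix_zero (ρ : Fin n → ℕ) (a a' : Fin n → Fin 3 → ℚ) : mix ρ a a' 0 = a := by
  funext i; simp [mix]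

lemma mix_top (ρ : Fin n → ℕ) (hρ : ∀ i, ρ i < n) (a a' : Fin n → Fin 3 → ℚ) : mix ρ a a' n = a' := by
  funext i; simp [mix, hρ i]

lemma mix_pos {ρ : Fin n → ℕ} {h h' : Fin n → Fin 3 → ℚ} (hh : ∀ i j, 0 < h i j)
    (hh' : ∀ i j, 0 < h' i j) (k : ℕ) : ∀ i j, 0 < mix ρ h h' k i j := by
  intro i j
  simp only [mix]
  split_ifs
  · exact hh' i j
  · exact hh i j

lemma mix_self (ρ : Fin n → ℕ) (a : Fin n → Fin 3 → ℚ) (k : ℕ) : mix ρ a a k = a := by
  funext i; simp [mix]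

/-- Sequential composition along a rank. -/
lemma reach_seq (ρ : Fin n → ℕ) (hρ : ∀ i, ρ i < n) {a h a' h' : Fin n → Fin 3 → ℚ}
    (hh : ∀ i j, 0 < h i j) (hh' : ∀ i j, 0 < h' i j)
    (hstep : ∀ k, k < n → Reach (mix ρ a a' k) (mix ρ h h' k) (mix ρ a a' (k + 1)) (mix ρ h h' (k + 1))) :
    Reach a h a' h' := by
  have key : ∀ k, k ≤ n → Reach a h (mix ρ a a' k) (mix ρ h h' k) := by
    intro k
    induction k with
    | zero =>
      intro _
      rw [mix_zero, mix_zero]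
      exact Reach.refl a h hh
    | succ k ih =>
      intro hk
      exact (ih (by omega)).trans hh (mix_pos hh hh' k) (hstep k (by omega))
  have := key n le_rfl
  rwa [mix_top ρ hρ, mix_top ρ hρ] at this

lemma shMap_same (l m : Fin 3) (β κ y₀ : ℚ) (x : Fin 3 → ℝ) :
    shMap l m β κ y₀ x m = x m + ((β : ℝ) * (x l - y₀) + κ) := by
  simp [shMap]

lemma shMap_ne (l m : Fin 3) (β κ y₀ : ℚ) (x : Fin 3 → ℝ) (j : Fin 3) (hj : j ≠ m) :
    shMap l m β κ y₀ x j = x j := by
  simp [shMap, Pi.single_eq_of_ne hj]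

lemma fin3_third : ∀ l m : Fin 3, l ≠ m → ∃ o, l ≠ o ∧ m ≠ o := by decide

lemma fin3_other : ∀ m : Fin 3, ∃ l, l ≠ m := by decide

/-- A single translated box. -/
lemma reach_translate (a a' h : Fin n → Fin 3 → ℚ) (hh : ∀ i j, 0 < h i j) (i₀ : Fin n) (m : Fin 3)
    (h1 : ∀ i, i ≠ i₀ → a' i = a i) (h2 : ∀ j, j ≠ m → a' i₀ j = a i₀ j)
    (hsep : ∀ i, i ≠ i₀ → Sep (fun j => if j = m then (a i₀ j + a' i₀ j) / 2 else a i₀ j)
      (fun j => if j = m then h i₀ j + |a' i₀ j - a i₀ j| / 2 else h i₀ j) (a i) (h i)) :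
    Reach a h a' h := by
  set T : ℚ := a' i₀ m - a i₀ m with hT
  obtain ⟨l, hl⟩ := fin3_other m
  obtain ⟨o, hlo, hmo⟩ := fin3_third l m hl
  set c : Fin 3 → ℚ := fun j => if j = m then (a i₀ j + a' i₀ j) / 2 else a i₀ j with hc
  set w : Fin 3 → ℚ := fun j => if j = m then h i₀ j + |a' i₀ j - a i₀ j| / 2 else h i₀ j with hw
  have hw0 : ∀ j, 0 ≤ w j := by
    intro j
    simp only [hw]
    split_ifs
    · have := hh i₀ j
      have := abs_nonneg (a' i₀ j - a i₀ j)
      linarith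
    · exact (hh i₀ j).le
  obtain ⟨U, hU, hU1, hU2⟩ := shear_move (ι := {i // i ≠ i₀}) c w hw0 l m o hl hlo hmo 0 T 0
    (fun i => a i.1) (fun i => h i.1) (fun i => hsep i.1 i.2)
  refine ⟨U, hU, fun i => ?_⟩
  by_cases hi : i = i₀
  · subst hi
    have hsh : ∀ x : Fin 3 → ℝ, shMap l m 0 T 0 x = aff (a i) (h i) (a' i) (h i) x := by
      intro x
      funext j
      have e1 : h i j / h i j = 1 := div_self (hh i j).ne'
      simp only [aff, e1, Rat.cast_one, one_mul]
      by_cases hj : j = m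
      · subst hj
        rw [shMap_same]
        simp only [hT]
        push_cast
        ring
      · rw [shMap_ne _ _ _ _ _ _ _ hj, h2 j hj]
        ring
    refine hU1.mono ?_ (fun x _ => (hsh x).symm)
    intro x hx
    have hx1 : ∀ j, |x j - a i j| ≤ h i j := hx
    have hc1 : ∀ j, j ≠ m → (c j : ℝ) = a i j := by
      intro j hj; simp [hc, hj]
    have hc2 : (c m : ℝ) = (a i m + a' i m) / 2 := by
      simp [hc]
    have hw1 : ∀ j, j ≠ m → (w j : ℝ) = h i j := by
      intro j hj; simp [hw, hj]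
    have hw2 : (w m : ℝ) = h i m + |(a' i m : ℝ) - a i m| / 2 := by
      simp [hw]
    have hT' : (T : ℝ) = a' i m - a i m := by simp [hT]
    have hab : |(T : ℝ)| = |(a' i m : ℝ) - a i m| := by rw [hT']
    constructor
    · intro j
      by_cases hj : j = m
      · subst hj
        rw [hc2, hw2]
        have h3 := hx1 j
        rw [abs_le] at h3 ⊢
        have h4 := le_abs_self ((a' i j : ℝ) - a i j)
        have h5 := neg_abs_le ((a' i j : ℝ) - a i j)
        constructor <;> linarith [h3.1, h3.2]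
      · rw [hc1 j hj, hw1 j hj]
        exact hx1 j
    · intro j
      by_cases hj : j = m
      · subst hj
        rw [hc2, hw2, shMap_same, hT']
        have h3 := hx1 j
        rw [abs_le] at h3 ⊢
        have h4 := le_abs_self ((a' i j : ℝ) - a i j)
        have h5 := neg_abs_le ((a' i j : ℝ) - a i j)
        push_cast
        constructor <;> linarith [h3.1, h3.2]
      · rw [hc1 j hj, hw1 j hj, shMap_ne _ _ _ _ _ _ _ hj]
        exact hx1 j
  · have := hU2 ⟨i, hi⟩
    rw [h1 i hi]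
    refine this.mono (Subset.refl _) (fun x _ => ?_)
    rw [aff_self _ _ (hh i)]
    rfl

/-- All boxes translated along `m`, guarded by another coordinate. -/
lemma reach_translate_all (a a' h : Fin n → Fin 3 → ℚ) (hh : ∀ i j, 0 < h i j) (m g : Fin 3) (hmg : g ≠ m)
    (ha : ∀ i j, j ≠ m → a' i j = a i j)
    (hguard : ∀ i i', i ≠ i' → h i g + h i' g < |a i g - a i' g|) : Reach a h a' h := by
  refine reach_seq (fun i => (i : ℕ)) (fun i => i.2) hh hh fun k hk => ?_
  rw [mix_self, mix_self]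
  refine reach_translate _ _ h hh ⟨k, hk⟩ m ?_ ?_ ?_
  · intro i hi
    have hi' : (i : ℕ) ≠ k := fun h => hi (Fin.ext h)
    simp only [mix]
    by_cases hlt : (i : ℕ) < k
    · simp [hlt, Nat.lt_succ_of_lt hlt]
    · have : ¬ (i : ℕ) < k + 1 := by omega
      simp [hlt, this]
  · intro j hj
    simp only [mix, lt_irrefl, if_false, Nat.lt_succ_self, if_true]
    exact ha _ j hj
  · intro i hi
    refine ⟨g, ?_⟩
    have e1 : ∀ q : ℕ, mix (fun i : Fin n => (i : ℕ)) a a' q i g = a i g := by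
      intro q
      simp only [mix]
      split_ifs
      · exact ha i g hmg
      · rfl
    have e2 : ∀ q : ℕ, mix (fun i : Fin n => (i : ℕ)) a a' q ⟨k, hk⟩ g = a ⟨k, hk⟩ g := by
      intro q
      simp only [mix]
      split_ifs
      · exact ha _ g hmg
      · rfl
    simp only [hmg, if_false, e1, e2]
    exact hguard _ _ (Ne.symm hi)

end Crest.Agent.Lib.BoxFlow
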