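import Crest.Agent.Lib.BoxFlow.Flow

set_option autoImplicit false
set_option maxHeartbeats 400000

open scoped ContDiff NNReal
open Set Crest.AnalysisR.BoxFlow Topology Metric

noncomputable section

namespace Crest.Agent.Lib.BoxFlow

set_option linter.unusedSectionVars false
set_option linter.unusedVariables false
set_option linter.unusedSimpArgs false

/-- Plateau for coordinate `j`. -/
def chiJ (c w : Fin 3 → ℚ) (δ : ℚ) (j : Fin 3) : ℕ → ℝ → ℝ :=
  chi (c j - w j - δ) (c j + w j) δ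

/-- The support interval. -/
def suppI (c w : Fin 3 → ℚ) (δ : ℚ) (j : Fin 3) : Set ℝ :=
  Icc ((c j : ℝ) - w j - δ) ((c j : ℝ) + w j + δ)

lemma chiJ_out (c w : Fin 3 → ℚ) (δ : ℚ) (hw : ∀ j, 0 ≤ w j) (hδ : 0 < δ) (j : Fin 3) (k : ℕ) (x : ℝ)
    (hx : x ∉ suppI c w δ j) : chiJ c w δ j k x = 0 := by
  apply chi_out
  · have := hw j
    linarith
  · exact hδ
  · simpa [suppI] using hx

lemma chiJ_core0 (c w : Fin 3 → ℚ) (δ : ℚ) (hδ : 0 < δ) (j : Fin 3) (x : ℝ)
    (hx : |x - c j| ≤ w j) : chiJ c w δ j 0 x = 1 := by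
  apply chi_core_zero _ _ _ hδ
  rw [abs_le] at hx
  constructor
  · push_cast; linarith [hx.1]
  · push_cast; linarith [hx.2]

lemma chiJ_core1 (c w : Fin 3 → ℚ) (δ : ℚ) (hδ : 0 < δ) (j : Fin 3) (x : ℝ)
    (hx : |x - c j| ≤ w j) : chiJ c w δ j 1 x = 0 := by
  apply chi_core_one _ _ _ hδ
  rw [abs_le] at hx
  constructor
  · push_cast; linarith [hx.1]
  · push_cast; linarith [hx.2]

/-- Positive time factor. -/
def psiP (k : ℕ) (t : ℝ) : ℝ := ((2 : ℚ) : ℝ) * psiF k t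
/-- Negative time factor. -/
def psiN (k : ℕ) (t : ℝ) : ℝ := ((-2 : ℚ) : ℝ) * psiF k t

lemma eff1_psiP : Eff1 psiP := eff1_psi.smul 2
lemma eff1_psiN : Eff1 psiN := eff1_psi.smul (-2)

/-- The shear field. -/
def shearU (c w : Fin 3 → ℚ) (δ : ℚ) (l m o : Fin 3) (β κ y₀ : ℚ) : Field := fun p =>
  PTf psiP (fun k => Gf β κ y₀ (chiJ c w δ l) (k + 1)) (chiJ c w δ m) (chiJ c w δ o) l m o m 0 0 0 0 p +
  PTf psiN (Gf β κ y₀ (chiJ c w δ l)) (fun k => chiJ c w δ m (k + 1)) (chiJ c w δ o) l m o l 0 0 0 0 p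

section
variable (c w : Fin 3 → ℚ) (δ : ℚ) (hw : ∀ j, 0 ≤ w j) (hδ : 0 < δ)
  (l m o : Fin 3) (β κ y₀ : ℚ)
include hw hδ

lemma eff1_chiJ (j : Fin 3) : Eff1 (chiJ c w δ j) := eff1_chi _ _ _

lemma eff1_GfJ (j : Fin 3) : Eff1 (Gf β κ y₀ (chiJ c w δ j)) := by
  refine eff1_Gf β κ y₀ ((c j : ℝ) - w j - δ) ((c j : ℝ) + w j + δ) (eff1_chiJ c w δ hw hδ j) ?_
  intro k x hx
  exact chiJ_out c w δ hw hδ j k x hx

lemma shearU_out (hlm : l ≠ m) (hlo : l ≠ o) (hmo : m ≠ o) (t : ℝ) (x : Fin 3 → ℝ)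
    (hx : ∃ j, x j ∉ suppI c w δ j) :
    shearU c w δ l m o β κ y₀ (t, x) = 0 := by
  obtain ⟨j, hj⟩ := hx
  have hG : ∀ k, x l ∉ suppI c w δ l → Gf β κ y₀ (chiJ c w δ l) k (x l) = 0 := fun k h =>
    Gf_out β κ y₀ (fun k x hx => chiJ_out c w δ hw hδ l k x hx) k (x l) h
  simp only [shearU, PTf, PTv]
  rcases fin3_cases l m o j hlm hlo hmo with rfl | rfl | rfl
  · simp [hG _ hj]
  · simp [chiJ_out c w δ hw hδ _ _ _ hj]
  · simp [chiJ_out c w δ hw hδ _ _ _ hj]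

lemma shearU_time (p : ℝ × (Fin 3 → ℝ)) (hp : p.1 ∉ Icc (1 / 4 : ℝ) (3 / 4)) :
    shearU c w δ l m o β κ y₀ p = 0 := by
  simp [shearU, PTf, PTv, psiP, psiN, psiF_out _ _ hp]

lemma good_shearU (hlm : l ≠ m) (hlo : l ≠ o) (hmo : m ≠ o) : Good (shearU c w δ l m o β κ y₀) := by
  have hG := eff1_GfJ c w δ hw hδ β κ y₀ l
  have hm' := eff1_chiJ c w δ hw hδ m
  have ho' := eff1_chiJ c w δ hw hδ o
  have s1 := contDiff_PTf (l := l) (m := m) (o := o) (e := m) eff1_psiP hG.shift hm' ho' 0 0 0 0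
  have s2 := contDiff_PTf (l := l) (m := m) (o := o) (e := l) eff1_psiN hG hm'.shift ho' 0 0 0 0
  have e1 := eff_PTf (e := m) eff1_psiP hG.shift hm' ho' hlm hlo hmo
  have e2 := eff_PTf (e := l) eff1_psiN hG hm'.shift ho' hlm hlo hmo
  refine ⟨s1.add s2, Eff'.add s1 s2 e1 e2, ?_, fun p hp => shearU_time c w δ hw hδ l m o β κ y₀ p hp, ?_⟩
  · -- spatial support
    have hb : ∃ R : ℝ, ∀ j : Fin 3, |(c j : ℝ)| + |(w j : ℝ)| + |(δ : ℝ)| ≤ R := by
      refine ⟨∑ j : Fin 3, (|(c j : ℝ)| + |(w j : ℝ)| + |(δ : ℝ)|), fun j => ?_⟩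
      exact Finset.single_le_sum (f := fun j : Fin 3 => |(c j : ℝ)| + |(w j : ℝ)| + |(δ : ℝ)|)
        (fun i _ => by positivity) (Finset.mem_univ j)
    obtain ⟨R, hR⟩ := hb
    refine ⟨R, fun p ⟨j, hj⟩ => ?_⟩
    have : shearU c w δ l m o β κ y₀ (p.1, p.2) = 0 := by
      apply shearU_out c w δ hw hδ l m o β κ y₀ hlm hlo hmo
      refine ⟨j, fun hmem => ?_⟩
      have h1 := hR j
      have h2 := hmem.1
      have h3 := hmem.2
      have h4 : |p.2 j| ≤ R := by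
        rw [abs_le]
        constructor
        · have := neg_abs_le (c j : ℝ)
          have := le_abs_self (w j : ℝ)
          have := le_abs_self (δ : ℝ)
          linarith
        · have := le_abs_self (c j : ℝ)
          have := le_abs_self (w j : ℝ)
          have := le_abs_self (δ : ℝ)
          linarith
      linarith
    exact this
  · intro p
    show spaceDiv (fun p => _ + _) p = 0
    rw [spaceDiv_add (differentiable_of_smooth s1) (differentiable_of_smooth s2),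
      spaceDiv_PTf eff1_psiP.deriv hG.shift.deriv hm'.deriv ho'.deriv hlm hlo hmo,
      spaceDiv_PTf eff1_psiN.deriv hG.deriv hm'.shift.deriv ho'.deriv hlm hlo hmo]
    have d1 : δt m.succ = 0 := by simp [δt]
    have d2 : δs l m.succ = 0 := by simp [δs, hlm.symm]
    have d3 : δs m m.succ = 1 := by simp [δs]
    have d4 : δs o m.succ = 0 := by simp [δs, hmo]
    have d5 : δt l.succ = 0 := by simp [δt]
    have d6 : δs l l.succ = 1 := by simp [δs]
    have d7 : δs m l.succ = 0 := by simp [δs, hlm]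
    have d8 : δs o l.succ = 0 := by simp [δs, hlo]
    rw [d1, d2, d3, d4, d5, d6, d7, d8]
    simp only [PTv, psiP, psiN]
    push_cast
    ring

/-- The shear map. -/
def shMap (l m : Fin 3) (β κ y₀ : ℚ) (x : Fin 3 → ℝ) : Fin 3 → ℝ :=
  x + Pi.single m ((β : ℝ) * (x l - y₀) + κ)

lemma shearU_core (hlm : l ≠ m) (hlo : l ≠ o) (hmo : m ≠ o) (t : ℝ) (y : Fin 3 → ℝ)
    (hy : y ∈ box c w) :
    shearU c w δ l m o β κ y₀ (t, y) =
      Pi.single m (2 * psiF 0 t * ((β : ℝ) * (y l - y₀) + κ)) := by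
  have hy' : ∀ j, |y j - c j| ≤ w j := hy
  simp only [shearU, PTf, PTv]
  have h1 : Gf β κ y₀ (chiJ c w δ l) (0 + 1) (y l) = (β : ℝ) * (y l - y₀) + κ :=
    Gf_core_one β κ y₀ (y l) (chiJ_core0 c w δ hδ l _ (hy' l)) (chiJ_core1 c w δ hδ l _ (hy' l))
  have h2 : chiJ c w δ m (0 + 1) (y m) = 0 := chiJ_core1 c w δ hδ m _ (hy' m)
  have h3 := chiJ_core0 c w δ hδ m _ (hy' m)
  have h4 := chiJ_core0 c w δ hδ o _ (hy' o)
  simp only [h1, h2, h3, h4, psiP]
  simp only [mul_zero, zero_mul, Pi.single_zero, add_zero, mul_one]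
  push_cast
  rfl

/-- Carrying inside the core. -/
lemma carries_shear_core (hlm : l ≠ m) (hlo : l ≠ o) (hmo : m ≠ o) :
    Carries (shearU c w δ l m o β κ y₀) {x | x ∈ box c w ∧ shMap l m β κ y₀ x ∈ box c w}
      (shMap l m β κ y₀) := by
  rintro x ⟨hx, hx'⟩
  have hx1 : ∀ j, |x j - c j| ≤ w j := hx
  have hx2 : ∀ j, |shMap l m β κ y₀ x j - c j| ≤ w j := hx'
  set P : ℝ := (β : ℝ) * (x l - y₀) + κ with hP
  have hsh : ∀ j, shMap l m β κ y₀ x j = x j + (Pi.single m P : Fin 3 → ℝ) j := fun j => rfl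
  refine ⟨fun t => x + Pi.single m (Psi t * P), fun t ht => ?_, fun t ht => ?_, fun t => ?_⟩
  · simp [Psi_of_le t ht]
  · simp only [Psi_of_ge t ht, one_mul]
    rfl
  · -- membership along the curve
    have hmem : x + Pi.single m (Psi t * P) ∈ box c w := by
      intro j
      by_cases hj : j = m
      · subst hj
        simp only [Pi.add_apply, Pi.single_eq_same]
        have h1 := hx1 j
        have h2 := hx2 j
        rw [hsh] at h2
        simp only [Pi.single_eq_same] at h2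
        obtain ⟨h3, h4⟩ := Psi_mem t
        rw [abs_le] at h1 h2 ⊢
        constructor <;> nlinarith [h1.1, h1.2, h2.1, h2.2]
      · simp only [Pi.add_apply, Pi.single_eq_of_ne hj, add_zero]
        exact hx1 j
    rw [shearU_core c w δ hw hδ l m o β κ y₀ hlm hlo hmo t _ hmem]
    have e1 : (x + Pi.single m (Psi t * P) : Fin 3 → ℝ) l = x l := by
      simp [Pi.single_eq_of_ne hlm]
    rw [e1]
    have h1 : HasDerivAt (fun t => Psi t * P) (2 * psiF 0 t * P) t := (hasDerivAt_Psi t).mul_const P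
    have h2 : HasDerivAt (fun t => x + Pi.single m (Psi t * P))
        (Pi.single m (2 * psiF 0 t * P)) t := by
      have h3 := (ContinuousLinearMap.single ℝ (fun _ : Fin 3 => ℝ) m).hasFDerivAt.comp_hasDerivAt t h1
      have h4 := h3.const_add x
      simpa using h4
    exact h2

/-- Carrying outside the support. -/
lemma carries_shear_out (hlm : l ≠ m) (hlo : l ≠ o) (hmo : m ≠ o) :
    Carries (shearU c w δ l m o β κ y₀) {x | ∃ j, x j ∉ suppI c w δ j} id := by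
  intro x hx
  refine ⟨fun _ => x, fun _ _ => rfl, fun _ _ => rfl, fun t => ?_⟩
  rw [shearU_out c w δ hw hδ l m o β κ y₀ hlm hlo hmo t x hx]
  exact hasDerivAt_const t x

end

/-- Choice of a uniform positive gap. -/
lemma exists_uniform_gap {ι : Type*} [Finite ι] (P : ι → ℚ → Prop)
    (hmono : ∀ i δ δ', 0 < δ' → δ' ≤ δ → P i δ → P i δ') (h : ∀ i, ∃ δ, 0 < δ ∧ P i δ) :
    ∃ δ : ℚ, 0 < δ ∧ ∀ i, P i δ := by
  choose f hf hf' using h
  rcases isEmpty_or_nonempty ι with hι | hι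
  · exact ⟨1, one_pos, fun i => (hι.false i).elim⟩
  · obtain ⟨i₀, hi₀⟩ := Finite.exists_min f
    exact ⟨f i₀, hf i₀, fun i => hmono i (f i) (f i₀) (hf i₀) (hi₀ i) (hf' i)⟩

/-- Separation of a core from another box. -/
def Sep (c w a h : Fin 3 → ℚ) : Prop := ∃ j, w j + h j < |c j - a j|

/-- The elementary shear with a family of other boxes carried by the identity. -/
theorem shear_move {ι : Type*} [Finite ι] (c w : Fin 3 → ℚ) (hw : ∀ j, 0 ≤ w j)
    (l m o : Fin 3) (hlm : l ≠ m) (hlo : l ≠ o) (hmo : m ≠ o) (β κ y₀ : ℚ)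
    (A h : ι → Fin 3 → ℚ) (hsep : ∀ i, Sep c w (A i) (h i)) :
    ∃ U, Good U ∧
      Carries U {x | x ∈ box c w ∧ shMap l m β κ y₀ x ∈ box c w} (shMap l m β κ y₀) ∧
      ∀ i, Carries U (box (A i) (h i)) id := by
  obtain ⟨δ, hδ, hδ'⟩ := exists_uniform_gap (fun i δ => ∃ j, w j + h i j + δ < |c j - A i j|)
    (fun i δ δ' _ hle ⟨j, hj⟩ => ⟨j, by linarith⟩)
    (fun i => by
      obtain ⟨j, hj⟩ := hsep i
      refine ⟨(|c j - A i j| - (w j + h i j)) / 2, by linarith, j, by linarith⟩)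
  refine ⟨shearU c w δ l m o β κ y₀, good_shearU c w δ hw hδ l m o β κ y₀ hlm hlo hmo,
    carries_shear_core c w δ hw hδ l m o β κ y₀ hlm hlo hmo, fun i => ?_⟩
  refine (carries_shear_out c w δ hw hδ l m o β κ y₀ hlm hlo hmo).mono ?_ (fun _ _ => rfl)
  intro x hx
  obtain ⟨j, hj⟩ := hδ' i
  refine ⟨j, fun hmem => ?_⟩
  have hx1 : |x j - A i j| ≤ h i j := hx j
  have hj' : (w j : ℝ) + h i j + δ < |(c j : ℝ) - A i j| := by exact_mod_cast hj
  have h1 : |(c j : ℝ) - A i j| ≤ |x j - A i j| + |x j - c j| := by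
    have := abs_sub_le (c j : ℝ) (x j) (A i j)
    rw [abs_sub_comm (c j : ℝ) (x j)] at this
    linarith
  have h2 : |x j - c j| ≤ w j + δ := by
    rw [abs_le]
    constructor <;> linarith [hmem.1, hmem.2]
  linarith

end Crest.Agent.Lib.BoxFlow
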