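import Crest.Agent.Lib.BoxFlow.Reach

set_option autoImplicit false
set_option maxHeartbeats 400000

open Set Crest.AnalysisR.BoxFlow

noncomputable section

namespace Crest.Agent.Lib.BoxFlow

set_option linter.unusedSectionVars false
set_option linter.unusedVariables false
set_option linter.unusedSimpArgs false

variable {n : ℕ}

lemma exists_ub {ι : Type*} [Finite ι] (f : ι → ℚ) : ∃ B, ∀ i, f i ≤ B := by
  obtain ⟨B, hB⟩ := Finite.bddAbove_range f
  exact ⟨B, fun i => hB ⟨i, rfl⟩⟩

/-- Stacking: make the boxes separated in the last coordinate, moving only along it. -/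
lemma reach_stack (a h : Fin n → Fin 3 → ℚ) (hh : ∀ i j, 0 < h i j)
    (hsep : ∀ i i', i ≠ i' → ∃ j, h i j + h i' j < |a i j - a i' j|) :
    ∃ a' : Fin n → Fin 3 → ℚ, Reach a h a' h ∧ (∀ i j, j ≠ 2 → a' i j = a i j) ∧
      ∀ i i', i ≠ i' → h i 2 + h i' 2 < |a' i 2 - a' i' 2| := by
  let f : Fin n → ℚ := fun i => -(a i 2 + h i 2)
  let σ := Tuple.sort f
  have hσ : Monotone (f ∘ σ) := Tuple.monotone_sort f
  let ρ : Fin n → ℕ := fun i => (σ.symm i : ℕ)
  have hρ : ∀ i, ρ i < n := fun i => (σ.symm i).2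
  have hρinj : ∀ i i', ρ i = ρ i' → i = i' := by
    intro i i' hii
    exact σ.symm.injective (Fin.ext hii)
  have hρσ : ∀ k (hk : k < n), ρ (σ ⟨k, hk⟩) = k := by
    intro k hk
    simp [ρ]
  obtain ⟨Base, hBase⟩ := exists_ub fun i => a i 2
  obtain ⟨B, hB⟩ := exists_ub fun i => h i 2
  set Λ : ℚ := 2 * |B| + 1 with hΛ
  have hΛ0 : 0 < Λ := by have := abs_nonneg B; linarith
  have hΛ1 : ∀ i i', h i 2 + h i' 2 < Λ := by
    intro i i'
    have h1 := hB i
    have h2 := hB i'
    have h3 := le_abs_self B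
    linarith
  let a' : Fin n → Fin 3 → ℚ := fun i j => if j = 2 then Base + ((n : ℚ) - ρ i) * Λ else a i j
  have ha' : ∀ i, a' i 2 = Base + ((n : ℚ) - ρ i) * Λ := fun i => by simp [a']
  have ha'' : ∀ i j, j ≠ 2 → a' i j = a i j := fun i j hj => by simp [a', hj]
  refine ⟨a', ?_, ha'', ?_⟩
  · refine reach_seq ρ hρ hh hh fun k hk => ?_
    rw [mix_self, mix_self]
    set i₀ := σ ⟨k, hk⟩ with hi₀
    have hk₀ : ρ i₀ = k := hρσ k hk
    have e0 : mix ρ a a' k i₀ = a i₀ := by simp [mix, hk₀]
    have e1 : mix ρ a a' (k + 1) i₀ = a' i₀ := by simp [mix, hk₀]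
    refine reach_translate _ _ h hh i₀ 2 ?_ ?_ ?_
    · intro i hi
      have hne : ρ i ≠ k := fun h' => hi (hρinj _ _ (by rw [h', hk₀]))
      simp only [mix]
      by_cases hlt : ρ i < k
      · simp [hlt, Nat.lt_succ_of_lt hlt]
      · have : ¬ ρ i < k + 1 := by omega
        simp [hlt, this]
    · intro j hj
      rw [e0, e1]
      exact ha'' _ j hj
    · intro i hi
      have hne : ρ i ≠ k := fun h' => hi (hρinj _ _ (by rw [h', hk₀]))
      rw [e0, e1]
      have hTnonneg : a i₀ 2 ≤ a' i₀ 2 := by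
        rw [ha', hk₀]
        have h1 := hBase i₀
        have h2 : (0 : ℚ) ≤ (n : ℚ) - (k : ℚ) := by
          have : (k : ℚ) ≤ n := by exact_mod_cast hk.le
          linarith
        have h3 := mul_nonneg h2 hΛ0.le
        linarith
      by_cases hlt : ρ i < k
      · -- already moved
        have e2 : mix ρ a a' k i = a' i := by simp [mix, hlt]
        rw [e2]
        refine ⟨2, ?_⟩
        simp only [if_true]
        rw [abs_of_nonneg (by linarith : (0 : ℚ) ≤ a' i₀ 2 - a i₀ 2)]
        have h1 : a' i 2 - a' i₀ 2 = ((k : ℚ) - ρ i) * Λ := by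
          rw [ha', ha', hk₀]; ring
        have h2 : (1 : ℚ) ≤ (k : ℚ) - ρ i := by
          have : ((ρ i : ℕ) : ℚ) + 1 ≤ k := by exact_mod_cast hlt
          linarith
        have h3 : Λ ≤ ((k : ℚ) - ρ i) * Λ := by nlinarith
        have h4 := hΛ1 i₀ i
        rw [abs_sub_comm]
        refine lt_of_lt_of_le ?_ (le_abs_self _)
        linarith
      · -- not moved yet
        have e2 : mix ρ a a' k i = a i := by simp [mix, hlt]
        rw [e2]
        have hgt : k < ρ i := by omega
        have hmon : f i₀ ≤ f i := by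
          have h1 : (⟨k, hk⟩ : Fin n) ≤ σ.symm i := by
            show k ≤ ρ i
            omega
          have h2 := hσ h1
          simpa [Function.comp, hi₀] using h2
        obtain ⟨j, hj⟩ := hsep i₀ i (Ne.symm hi)
        by_cases hj2 : j = 2
        · subst hj2
          refine ⟨2, ?_⟩
          simp only [if_true]
          have hf : a i 2 + h i 2 ≤ a i₀ 2 + h i₀ 2 := by
            simp only [f] at hmon
            linarith
          have hbelow : h i₀ 2 + h i 2 < a i₀ 2 - a i 2 := by
            rcases lt_abs.1 hj with h1 | h1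
            · exact h1
            · exfalso
              have := hh i 2
              have := hh i₀ 2
              linarith
          rw [abs_of_nonneg (by linarith : (0 : ℚ) ≤ a' i₀ 2 - a i₀ 2)]
          refine lt_of_lt_of_le ?_ (le_abs_self _)
          linarith
        · refine ⟨j, ?_⟩
          simp only [hj2, if_false]
          exact hj
  · intro i i' hii
    have hne : ρ i ≠ ρ i' := fun h' => hii (hρinj _ _ h')
    rw [ha', ha']
    have h1 : Base + ((n : ℚ) - ρ i) * Λ - (Base + ((n : ℚ) - ρ i') * Λ) =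
        ((ρ i' : ℚ) - ρ i) * Λ := by ring
    rw [h1, abs_mul, abs_of_pos hΛ0]
    have h2 : (1 : ℚ) ≤ |(ρ i' : ℚ) - ρ i| := by
      have h3 : (ρ i' : ℤ) - ρ i ≠ 0 := by
        intro h4
        apply hne
        omega
      have h4 : (1 : ℤ) ≤ |(ρ i' : ℤ) - ρ i| := Int.one_le_abs h3
      have h5 : ((1 : ℤ) : ℚ) ≤ ((|(ρ i' : ℤ) - ρ i| : ℤ) : ℚ) := by exact_mod_cast h4
      simpa using h5
    have h4 := hΛ1 i i'
    nlinarith

/-- The bound of the intermediate shapes in a diagonal move. -/
def W0 (p q r : ℚ) : ℚ := p + q + q / r + (r + 1) * p + r * p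

lemma W0_ge (p q r : ℚ) (hp : 0 < p) (hq : 0 < q) (hr : 0 < r) :
    p ≤ W0 p q r ∧ q ≤ W0 p q r ∧ r * p ≤ W0 p q r ∧ q / r ≤ W0 p q r ∧ p + q / r ≤ W0 p q r ∧
      q / r + (r + 1) * p ≤ W0 p q r := by
  have h1 : 0 < q / r := div_pos hq hr
  have h2 : 0 < r * p := mul_pos hr hp
  have h3 : 0 < (r + 1) * p := mul_pos (by linarith) hp
  unfold W0
  refine ⟨?_, ?_, ?_, ?_, ?_, ?_⟩ <;> linarith

/-- A diagonal move. -/
lemma reach_diag (a h h' : Fin n → Fin 3 → ℚ) (hh : ∀ i j, 0 < h i j) (hh' : ∀ i j, 0 < h' i j)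
    (i₀ : Fin n) (l m o : Fin 3) (hlm : l ≠ m) (hlo : l ≠ o) (hmo : m ≠ o) (r : ℚ) (hr : 0 < r)
    (h1 : ∀ i, i ≠ i₀ → h' i = h i) (h2l : h' i₀ l = h i₀ l * r) (h2m : h' i₀ m = h i₀ m / r)
    (h2o : h' i₀ o = h i₀ o)
    (hsep : ∀ i, i ≠ i₀ → Sep (a i₀) (fun j => if j = o then h i₀ o else W0 (h i₀ l) (h i₀ m) r)
      (a i) (h i)) :
    Reach a h a h' := by
  set c := a i₀ with hc
  set p := h i₀ l with hp
  set q := h i₀ m with hq
  set w : Fin 3 → ℚ := fun j => if j = o then h i₀ o else W0 p q r with hw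
  have hp0 : 0 < p := hh _ _
  have hq0 : 0 < q := hh _ _
  obtain ⟨b1, b2, b3, b4, b5, b6⟩ := W0_ge p q r hp0 hq0 hr
  have hwpos : ∀ j, 0 ≤ w j := by
    intro j
    simp only [hw]
    split_ifs
    · exact (hh _ _).le
    · linarith
  have hsep' : ∀ i : {i // i ≠ i₀}, Sep c w (a i.1) (h i.1) := fun i => hsep i.1 i.2
  obtain ⟨U1, hU1, hU1a, hU1b⟩ := shear_move c w hwpos m l o hlm.symm hmo hlo (-1 / r) 0 (c m)
    (fun i : {i // i ≠ i₀} => a i.1) (fun i => h i.1) hsep'
  obtain ⟨U2, hU2, hU2a, hU2b⟩ := shear_move c w hwpos l m o hlm hlo hmo (r - 1) 0 (c l)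
    (fun i : {i // i ≠ i₀} => a i.1) (fun i => h i.1) hsep'
  obtain ⟨U3, hU3, hU3a, hU3b⟩ := shear_move c w hwpos m l o hlm.symm hmo hlo 1 0 (c m)
    (fun i : {i // i ≠ i₀} => a i.1) (fun i => h i.1) hsep'
  obtain ⟨U4, hU4, hU4a, hU4b⟩ := shear_move c w hwpos l m o hlm hlo hmo ((1 - r) / r) 0 (c l)
    (fun i : {i // i ≠ i₀} => a i.1) (fun i => h i.1) hsep'
  refine ⟨conc (conc (conc U1 U2) U3) U4, ((hU1.conc hU2).conc hU3).conc hU4, fun i => ?_⟩
  by_cases hi : i = i₀
  · subst hi
    -- the shear maps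
    let S1 := shMap m l (-1 / r) 0 (c m)
    let S2 := shMap l m (r - 1) 0 (c l)
    let S3 := shMap m l 1 0 (c m)
    let S4 := shMap l m ((1 - r) / r) 0 (c l)
    have hr' : (0 : ℝ) < r := by exact_mod_cast hr
    have hcoord : ∀ x ∈ box c (h i), ∀ u v : ℝ, u = x l - c l → v = x m - c m →
        (x ∈ box c w) ∧ (S1 x ∈ box c w) ∧ (S2 (S1 x) ∈ box c w) ∧ (S3 (S2 (S1 x)) ∈ box c w) ∧
        (S4 (S3 (S2 (S1 x))) ∈ box c w) ∧
        (S4 (S3 (S2 (S1 x))) = aff (c) (h i) (c) (h' i) x) := by
      intro x hx u v hu hv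
      have hx1 : ∀ j, |x j - c j| ≤ h i j := hx
      have hu' : |u| ≤ p := by rw [hu]; exact hx1 l
      have hv' : |v| ≤ q := by rw [hv]; exact hx1 m
      have hxo : |x o - c o| ≤ h i o := hx1 o
      -- coordinates
      have s1l : S1 x l = c l + (u - v / r) := by
        simp only [S1]
        rw [shMap_same, hu, hv]
        push_cast
        ring
      have s1m : S1 x m = c m + v := by
        simp only [S1]
        rw [shMap_ne _ _ _ _ _ _ _ hlm.symm, hv]
        ring
      have s1o : S1 x o = x o := by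
        simp only [S1]
        rw [shMap_ne _ _ _ _ _ _ _ hlo.symm]
      have s2l : S2 (S1 x) l = c l + (u - v / r) := by
        simp only [S2]
        rw [shMap_ne _ _ _ _ _ _ _ hlm, s1l]
      have s2m : S2 (S1 x) m = c m + (v / r + (r - 1) * u) := by
        simp only [S2]
        rw [shMap_same, s1m, s1l]
        push_cast
        field_simp
        ring
      have s2o : S2 (S1 x) o = x o := by
        simp only [S2]
        rw [shMap_ne _ _ _ _ _ _ _ hmo.symm, s1o]
      have s3l : S3 (S2 (S1 x)) l = c l + r * u := by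
        simp only [S3]
        rw [shMap_same, s2l, s2m]
        push_cast
        ring
      have s3m : S3 (S2 (S1 x)) m = c m + (v / r + (r - 1) * u) := by
        simp only [S3]
        rw [shMap_ne _ _ _ _ _ _ _ hlm.symm, s2m]
      have s3o : S3 (S2 (S1 x)) o = x o := by
        simp only [S3]
        rw [shMap_ne _ _ _ _ _ _ _ hlo.symm, s2o]
      have s4l : S4 (S3 (S2 (S1 x))) l = c l + r * u := by
        simp only [S4]
        rw [shMap_ne _ _ _ _ _ _ _ hlm, s3l]
      have s4m : S4 (S3 (S2 (S1 x))) m = c m + v / r := by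
        simp only [S4]
        rw [shMap_same, s3m, s3l]
        push_cast
        field_simp
        ring
      have s4o : S4 (S3 (S2 (S1 x))) o = x o := by
        simp only [S4]
        rw [shMap_ne _ _ _ _ _ _ _ hmo.symm, s3o]
      -- bounds
      have bu := abs_le.1 hu'
      have bv := abs_le.1 hv'
      have hvr : |v / r| ≤ q / r := by
        rw [abs_div, abs_of_pos hr']
        exact div_le_div_of_nonneg_right hv' hr'.le
      have bvr := abs_le.1 hvr
      have hru : |r * u| ≤ r * p := by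
        rw [abs_mul, abs_of_pos hr']
        exact mul_le_mul_of_nonneg_left hu' hr'.le
      have bru := abs_le.1 hru
      have e1 : (r - 1) * u = r * u - u := by ring
      have B1 : (p : ℝ) ≤ W0 p q r := by exact_mod_cast b1
      have B2 : (q : ℝ) ≤ W0 p q r := by exact_mod_cast b2
      have B3 : (r : ℝ) * p ≤ W0 p q r := by exact_mod_cast b3
      have B4 : (q : ℝ) / r ≤ W0 p q r := by exact_mod_cast b4
      have B5 : (p : ℝ) + q / r ≤ W0 p q r := by exact_mod_cast b5
      have B6 : (q : ℝ) / r + (r + 1) * p ≤ W0 p q r := by exact_mod_cast b6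
      have wl : (w l : ℝ) = W0 p q r := by simp [hw, hlo]
      have wm : (w m : ℝ) = W0 p q r := by simp [hw, hmo]
      have wo : (w o : ℝ) = h i o := by simp [hw]
      have hmem : ∀ y : Fin 3 → ℝ, |y l - c l| ≤ W0 p q r → |y m - c m| ≤ W0 p q r → y o = x o →
          y ∈ box c w := by
        intro y h1 h2 h3 j
        rcases fin3_cases l m o j hlm hlo hmo with rfl | rfl | rfl
        · rw [wl]; exact h1
        · rw [wm]; exact h2
        · rw [wo, h3]; exact hxo
      have e2 : (r + 1 : ℝ) * p = r * p + p := by ring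
      refine ⟨?_, ?_, ?_, ?_, ?_, ?_⟩
      · apply hmem x _ _ rfl
        · rw [← hu, abs_le]; constructor <;> linarith [bu.1, bu.2]
        · rw [← hv, abs_le]; constructor <;> linarith [bv.1, bv.2]
      · apply hmem _ _ _ s1o
        · rw [s1l, add_sub_cancel_left, abs_le]; constructor <;> linarith [bu.1, bu.2, bvr.1, bvr.2]
        · rw [s1m, add_sub_cancel_left, abs_le]; constructor <;> linarith [bv.1, bv.2]
      · apply hmem _ _ _ s2o
        · rw [s2l, add_sub_cancel_left, abs_le]; constructor <;> linarith [bu.1, bu.2, bvr.1, bvr.2]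
        · rw [s2m, add_sub_cancel_left, abs_le, e1]
          constructor <;> linarith [bu.1, bu.2, bvr.1, bvr.2, bru.1, bru.2]
      · apply hmem _ _ _ s3o
        · rw [s3l, add_sub_cancel_left, abs_le]; constructor <;> linarith [bru.1, bru.2]
        · rw [s3m, add_sub_cancel_left, abs_le, e1]
          constructor <;> linarith [bu.1, bu.2, bvr.1, bvr.2, bru.1, bru.2]
      · apply hmem _ _ _ s4o
        · rw [s4l, add_sub_cancel_left, abs_le]; constructor <;> linarith [bru.1, bru.2]
        · rw [s4m, add_sub_cancel_left, abs_le]; constructor <;> linarith [bvr.1, bvr.2]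
      · funext j
        have hql : ((h' i l / h i l : ℚ) : ℝ) = r := by
          rw [h2l]
          have : h i l ≠ 0 := (hh i l).ne'
          push_cast
          have h5 : (h i l : ℝ) ≠ 0 := by exact_mod_cast this
          field_simp
          rfl
        have hqm : ((h' i m / h i m : ℚ) : ℝ) = 1 / r := by
          rw [h2m]
          have : h i m ≠ 0 := (hh i m).ne'
          push_cast
          have h5 : (h i m : ℝ) ≠ 0 := by exact_mod_cast this
          field_simp
          rfl
        have hqo : ((h' i o / h i o : ℚ) : ℝ) = 1 := by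
          rw [h2o]
          have : h i o ≠ 0 := (hh i o).ne'
          simp [this]
        rcases fin3_cases l m o j hlm hlo hmo with rfl | rfl | rfl
        · rw [s4l]
          simp only [aff, hql, ← hu]
        · rw [s4m]
          simp only [aff, hqm, ← hv]
          ring
        · rw [s4o]
          simp only [aff, hqo]
          ring
    have hbox : ∀ x ∈ box (a i) (h i), _ := fun x hx => hcoord x hx _ _ rfl rfl
    have C1 : Carries U1 (box (a i) (h i)) S1 :=
      hU1a.mono (fun x hx => ⟨(hbox x hx).1, (hbox x hx).2.1⟩) (fun _ _ => rfl)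
    have C2 : Carries (conc U1 U2) (box (a i) (h i)) (fun x => S2 (S1 x)) :=
      Carries.conc hU1.time hU2.time C1 hU2a
        (fun x hx => ⟨(hbox x hx).2.1, (hbox x hx).2.2.1⟩)
    have C3 : Carries (conc (conc U1 U2) U3) (box (a i) (h i)) (fun x => S3 (S2 (S1 x))) :=
      Carries.conc (hU1.conc hU2).time hU3.time C2 hU3a
        (fun x hx => ⟨(hbox x hx).2.2.1, (hbox x hx).2.2.2.1⟩)
    have C4 : Carries (conc (conc (conc U1 U2) U3) U4) (box (a i) (h i))
        (fun x => S4 (S3 (S2 (S1 x)))) :=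
      Carries.conc ((hU1.conc hU2).conc hU3).time hU4.time C3 hU4a
        (fun x hx => ⟨(hbox x hx).2.2.2.1, (hbox x hx).2.2.2.2.1⟩)
    exact C4.mono (Subset.refl _) (fun x hx => (hbox x hx).2.2.2.2.2.symm)
  · have C1 := hU1b ⟨i, hi⟩
    have C2 := Carries.conc hU1.time hU2.time C1 (hU2b ⟨i, hi⟩) (fun x hx => hx)
    have C3 := Carries.conc (hU1.conc hU2).time hU3.time C2 (hU3b ⟨i, hi⟩) (fun x hx => hx)
    have C4 := Carries.conc ((hU1.conc hU2).conc hU3).time hU4.time C3 (hU4b ⟨i, hi⟩) (fun x hx => hx)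
    refine C4.mono (Subset.refl _) (fun x _ => ?_)
    rw [h1 i hi, aff_self _ _ (hh i)]
    rfl

end Crest.Agent.Lib.BoxFlow
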